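import Mathlib

/-! # P314: dilations of polynomials and of rational functions (q-difference calculus) -/

namespace Vale.Agent.P314

open Polynomial

noncomputable section

variable {K : Type*} [Field K]

/-- The dilation `p(X) ↦ p(qX)`. -/
def dil (q : K) : K[X] →+* K[X] := Polynomial.compRingHom (C q * X)

lemma dil_coeff (q : K) (p : K[X]) (m : ℕ) : (dil q p).coeff m = p.coeff m * q ^ m := by
  simp only [dil, coe_compRingHom]
  exact comp_C_mul_X_coeff

lemma dil_C (q a : K) : dil q (C a) = C a := by simp [dil]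

lemma dil_X (q : K) : dil q X = C q * X := by simp [dil]

lemma dil_natDegree_le (q : K) (p : K[X]) : (dil q p).natDegree ≤ p.natDegree := by
  rw [natDegree_le_iff_coeff_eq_zero]
  intro m hm
  rw [dil_coeff, coeff_eq_zero_of_natDegree_lt hm, zero_mul]

lemma dil_dil_inv {q : K} (hq : q ≠ 0) (p : K[X]) : dil q (dil q⁻¹ p) = p := by
  ext m
  rw [dil_coeff, dil_coeff, mul_assoc, ← mul_pow, inv_mul_cancel₀ hq, one_pow, mul_one]

lemma dil_inv_dil {q : K} (hq : q ≠ 0) (p : K[X]) : dil q⁻¹ (dil q p) = p := by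
  ext m
  rw [dil_coeff, dil_coeff, mul_assoc, ← mul_pow, mul_inv_cancel₀ hq, one_pow, mul_one]

lemma aeval_dil {Ω : Type*} [Field Ω] [Algebra K Ω] (q : K) (p : K[X]) (β : Ω) :
    aeval β (dil q p) = aeval (algebraMap K Ω q * β) p := by
  simp only [dil, coe_compRingHom, aeval_comp, map_mul, aeval_C, aeval_X]

/-- The denominators used throughout. -/
def pden (K : Type*) [Field K] (n : ℕ) : K[X] := 1 - X ^ n

lemma pden_coeff_zero {n : ℕ} (hn : 0 < n) : (pden K n).coeff 0 = 1 := by
  simp [pden, coeff_X_pow, hn.ne]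

lemma pden_natDegree (n : ℕ) : (pden K n).natDegree = n := by
  have : pden K n = -(X ^ n - C 1) := by simp [pden]
  rw [this, natDegree_neg, natDegree_X_pow_sub_C]

lemma pden_ne_zero {n : ℕ} (hn : 0 < n) : pden K n ≠ 0 := by
  intro h
  have := pden_coeff_zero (K := K) hn
  rw [h] at this
  simp at this

/-- Step 1: the denominator does not vanish at the origin. -/
lemma denom_coeff_zero {q : K} (hq : ∀ k : ℕ, 0 < k → q ^ k ≠ 1) {n : ℕ} (hn : 0 < n)
    {A B S : K[X]} (hAB : IsCoprime A B) (hB : B ≠ 0) (hS0 : S.coeff 0 = 0)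
    (h : pden K n * dil q A * B = pden K n * A * dil q B - S * B * dil q B) :
    B.coeff 0 ≠ 0 := by
  obtain ⟨B1, hB1, hnd⟩ := exists_eq_pow_rootMultiplicity_mul_and_not_dvd B hB 0
  set m := rootMultiplicity 0 B with hm
  rw [map_zero, sub_zero] at hB1 hnd
  have hB10 : B1.coeff 0 ≠ 0 := fun h0 => hnd (X_dvd_iff.mpr h0)
  rcases Nat.eq_zero_or_pos m with hm0 | hmpos
  · rw [hm0, pow_zero, one_mul] at hB1
    rw [hB1]; exact hB10
  · exfalso
    have hXB : X ∣ B := by
      rw [hB1]; exact Dvd.dvd.mul_right (dvd_pow_self X hmpos.ne') _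
    have hA0 : A.coeff 0 ≠ 0 := by
      intro hA0
      have hXA : X ∣ A := X_dvd_iff.mpr hA0
      obtain ⟨a, b, hab⟩ := hAB
      have hx1 : (X : K[X]) ∣ 1 := by
        rw [← hab]; exact dvd_add (Dvd.dvd.mul_left hXA a) (Dvd.dvd.mul_left hXB b)
      exact Polynomial.not_isUnit_X (isUnit_of_dvd_one hx1)
    have hdB : dil q B = C (q ^ m) * X ^ m * dil q B1 := by
      conv_lhs => rw [hB1]
      rw [map_mul, map_pow, dil_X, mul_pow, ← C_pow]
    have hc : X ^ m * (pden K n * dil q A * B1)
        = X ^ m * (pden K n * A * C (q ^ m) * dil q B1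
          - S * B1 * (C (q ^ m) * X ^ m * dil q B1)) := by
      have h2 := h
      rw [hdB] at h2
      conv at h2 => lhs; rw [hB1]
      have h3 : S * B * (C (q ^ m) * X ^ m * dil q B1)
          = X ^ m * (S * B1 * (C (q ^ m) * X ^ m * dil q B1)) := by
        conv_lhs => rw [hB1]
        ring
      rw [h3] at h2
      linear_combination h2
    have hX : (X ^ m : K[X]) ≠ 0 := pow_ne_zero _ X_ne_zero
    have hc' := mul_left_cancel₀ hX hc
    have hev := congrArg (fun p => p.coeff 0) hc'
    simp only [mul_coeff_zero, coeff_sub, pden_coeff_zero hn, dil_coeff, pow_zero, mul_one,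
      one_mul, coeff_C_zero, hS0, zero_mul, sub_zero] at hev
    have : (1 - q ^ m) * (A.coeff 0 * B1.coeff 0) = 0 := by linear_combination hev
    rcases mul_eq_zero.mp this with h1 | h1
    · exact hq m hmpos (sub_eq_zero.mp h1).symm
    · exact mul_ne_zero hA0 hB10 h1

/-- Step 2: the denominator has no roots. -/
lemma denom_natDegree {q : K} (hq0 : q ≠ 0) (hq : ∀ k : ℕ, 0 < k → q ^ k ≠ 1)
    {n : ℕ} (hn : 0 < n) {A B S : K[X]} (hAB : IsCoprime A B) (hB : B ≠ 0)
    (hS0 : S.coeff 0 = 0)
    (h : pden K n * dil q A * B = pden K n * A * dil q B - S * B * dil q B) :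
    B.degree = 0 := by
  by_contra hdeg
  have hB0 := denom_coeff_zero hq hn hAB hB hS0 h
  let Ω := AlgebraicClosure K
  obtain ⟨β, hβ⟩ := IsAlgClosed.exists_aeval_eq_zero Ω B hdeg
  set Q : Ω := algebraMap K Ω q with hQ
  have hQ0 : Q ≠ 0 := by
    rw [hQ]; exact (map_ne_zero (algebraMap K Ω)).mpr hq0
  have hQpow : ∀ k : ℕ, 0 < k → Q ^ k ≠ 1 := by
    intro k hk h1
    apply hq k hk
    apply (algebraMap K Ω).injective
    rw [map_pow, map_one]; exact h1
  have hβ0 : β ≠ 0 := by
    intro h0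
    rw [h0] at hβ
    have h1 : aeval (0 : Ω) B = algebraMap K Ω (B.coeff 0) := by
      rw [aeval_def, eval₂_at_zero]
    rw [h1] at hβ
    exact hB0 ((map_eq_zero (algebraMap K Ω)).mp hβ)
  -- divisibilities
  have d1 : B ∣ pden K n * dil q B := by
    have h1 : B ∣ A * (pden K n * dil q B) := by
      refine ⟨pden K n * dil q A + S * dil q B, ?_⟩
      linear_combination -h
    exact hAB.symm.dvd_of_dvd_mul_left h1
  have d2 : dil q B ∣ pden K n * B := by
    have h1 : dil q B ∣ dil q A * (pden K n * B) := by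
      refine ⟨pden K n * A - S * B, ?_⟩
      linear_combination h
    have hco : IsCoprime (dil q B) (dil q A) := hAB.symm.map (dil q)
    exact hco.dvd_of_dvd_mul_left h1
  have ap : ∀ γ : Ω, aeval γ (pden K n) = 0 → γ ^ n = 1 := by
    intro γ hγ
    simp only [pden, map_sub, map_one, map_pow, aeval_X] at hγ
    exact (sub_eq_zero.mp hγ).symm
  have e1 : ∀ γ : Ω, aeval γ B = 0 → γ ^ n = 1 ∨ aeval (Q * γ) B = 0 := by
    intro γ hγ
    obtain ⟨R, hR⟩ := d1
    have h1 : aeval γ (pden K n * dil q B) = 0 := by rw [hR, map_mul, hγ, zero_mul]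
    rw [map_mul, aeval_dil] at h1
    rcases mul_eq_zero.mp h1 with h2 | h2
    · left; exact ap γ h2
    · right; exact h2
  have e2 : ∀ γ : Ω, aeval (Q * γ) B = 0 → γ ^ n = 1 ∨ aeval γ B = 0 := by
    intro γ hγ
    obtain ⟨R, hR⟩ := d2
    have h1 : aeval γ (pden K n * B) = 0 := by
      rw [hR, map_mul, aeval_dil, hγ, zero_mul]
    rw [map_mul] at h1
    rcases mul_eq_zero.mp h1 with h2 | h2
    · left; exact ap γ h2
    · right; exact h2
  have hBmap : B.map (algebraMap K Ω) ≠ 0 :=
    (Polynomial.map_ne_zero_iff (algebraMap K Ω).injective).mpr hB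
  have noinf : ∀ F : ℕ → Ω, Function.Injective F → ¬ ∀ k, aeval (F k) B = 0 := by
    intro F hF hall
    apply hBmap
    apply Polynomial.eq_zero_of_infinite_isRoot
    refine Set.Infinite.mono ?_ (Set.infinite_range_of_injective hF)
    rintro x ⟨k, rfl⟩
    simp only [Set.mem_setOf_eq, IsRoot.def, eval_map_algebraMap]
    exact hall k
  -- powers are distinct
  have hinj1 : ∀ i j : ℕ, i < j → Q ^ i ≠ Q ^ j := by
    intro i j hij he
    have : Q ^ i * (Q ^ (j - i) - 1) = 0 := by
      rw [mul_sub, ← pow_add, Nat.add_sub_cancel' hij.le, mul_one, he, sub_self]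
    rcases mul_eq_zero.mp this with h1 | h1
    · exact pow_ne_zero _ hQ0 h1
    · exact hQpow (j - i) (Nat.sub_pos_of_lt hij) (sub_eq_zero.mp h1)
  have hinj : Function.Injective (fun k : ℕ => Q ^ k) := by
    intro i j he
    rcases lt_trichotomy i j with h1 | h1 | h1
    · exact absurd he (hinj1 i j h1)
    · exact h1
    · exact absurd he.symm (hinj1 j i h1)
  have c1 : ∃ k : ℕ, (Q ^ k * β) ^ n = 1 := by
    by_contra hne
    push Not at hne
    apply noinf (fun k => Q ^ k * β)
    · intro i j he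
      exact hinj (mul_right_cancel₀ hβ0 he)
    · intro k
      induction k with
      | zero => simpa using hβ
      | succ k ih =>
        rcases e1 _ ih with h1 | h1
        · exact absurd h1 (hne k)
        · rw [← mul_assoc, ← pow_succ'] at h1
          exact h1
  have c2 : ∃ j : ℕ, 0 < j ∧ ((Q ^ j)⁻¹ * β) ^ n = 1 := by
    by_contra hne
    push Not at hne
    apply noinf (fun k => (Q ^ k)⁻¹ * β)
    · intro i j he
      exact hinj (inv_injective (mul_right_cancel₀ hβ0 he))
    · intro k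
      induction k with
      | zero => simpa using hβ
      | succ k ih =>
        have h0 : Q * ((Q ^ (k + 1))⁻¹ * β) = (Q ^ k)⁻¹ * β := by
          rw [pow_succ', mul_inv, ← mul_assoc, ← mul_assoc, mul_inv_cancel₀ hQ0, one_mul]
        have ih' : aeval (Q * ((Q ^ (k + 1))⁻¹ * β)) B = 0 := by rw [h0]; exact ih
        rcases e2 _ ih' with h1 | h1
        · exact absurd h1 (hne (k + 1) (Nat.succ_pos k))
        · exact h1
  obtain ⟨k, hk⟩ := c1
  obtain ⟨j, hj, hj1⟩ := c2
  have hfin : Q ^ ((k + j) * n) = 1 := by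
    have h1 : (Q ^ k * β) ^ n = ((Q ^ j)⁻¹ * β) ^ n := by rw [hk, hj1]
    have h2 : Q ^ k * β = Q ^ (k + j) * ((Q ^ j)⁻¹ * β) := by
      rw [pow_add, mul_assoc, ← mul_assoc (Q ^ j), mul_inv_cancel₀ (pow_ne_zero _ hQ0), one_mul]
    rw [h2, mul_pow, hj1, mul_one, ← pow_mul] at hk
    exact hk
  exact hQpow ((k + j) * n) (Nat.mul_pos (by omega) hn) hfin

/-- The polynomial form of the independence lemma. -/
lemma key_poly {q : K} (hq0 : q ≠ 0) (hq : ∀ k : ℕ, 0 < k → q ^ k ≠ 1)
    {n : ℕ} (hn : 0 < n) {A B S : K[X]} (hAB : IsCoprime A B) (hB : B ≠ 0)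
    (hS0 : S.coeff 0 = 0) (hSn : S.natDegree ≤ n)
    (h : pden K n * dil q A * B = pden K n * A * dil q B - S * B * dil q B) :
    S = 0 ∧ (∃ b : K, b ≠ 0 ∧ B = C b) ∧ ∃ a : K, A = C a := by
  have hdeg := denom_natDegree hq0 hq hn hAB hB hS0 h
  have hBC : B = C (B.coeff 0) := eq_C_of_degree_eq_zero hdeg
  have hb : B.coeff 0 ≠ 0 := denom_coeff_zero hq hn hAB hB hS0 h
  set b := B.coeff 0 with hbdef
  have h1 : pden K n * (A - dil q A) = S * C b := by
    rw [hBC, dil_C] at h
    have hCb : (C b : K[X]) ≠ 0 := C_ne_zero.mpr hb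
    apply mul_right_cancel₀ hCb
    linear_combination -h
  have hE : A - dil q A = 0 := by
    by_contra hE
    have hd : (pden K n * (A - dil q A)).natDegree = n + (A - dil q A).natDegree := by
      rw [natDegree_mul (pden_ne_zero hn) hE, pden_natDegree]
    have hd2 : (S * C b).natDegree ≤ n := by
      refine (natDegree_mul_le).trans ?_
      rw [natDegree_C]; simpa using hSn
    rw [← h1, hd] at hd2
    have hE0 : (A - dil q A).natDegree = 0 := by omega
    have hE1 := eq_C_of_natDegree_eq_zero hE0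
    apply hE
    rw [hE1, coeff_sub, dil_coeff, pow_zero, mul_one, sub_self, map_zero]
  refine ⟨?_, ⟨b, hb, hBC⟩, ⟨A.coeff 0, ?_⟩⟩
  · rw [hE, mul_zero] at h1
    rcases mul_eq_zero.mp h1.symm with h2 | h2
    · exact h2
    · exact absurd h2 (C_ne_zero.mpr hb)
  · ext m
    rcases Nat.eq_zero_or_pos m with hm | hm
    · rw [hm, coeff_C_zero]
    · rw [coeff_C_ne_zero hm.ne']
      have h2 := congrArg (fun p => p.coeff m) hE
      simp only [coeff_sub, dil_coeff, coeff_zero] at h2
      have h3 : A.coeff m * (1 - q ^ m) = 0 := by linear_combination h2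
      rcases mul_eq_zero.mp h3 with h4 | h4
      · exact h4
      · exact absurd (sub_eq_zero.mp h4).symm (hq m hm)

/-- The dilation as a ring automorphism of the polynomial ring. -/
def dilEquiv (q : K) (hq : q ≠ 0) : K[X] ≃+* K[X] :=
  { dil q with
    invFun := dil q⁻¹
    left_inv := dil_inv_dil hq
    right_inv := dil_dil_inv hq }

/-- The dilation as an automorphism of the field of rational functions. -/
def sig (q : K) (hq : q ≠ 0) : RatFunc K ≃+* RatFunc K :=
  IsFractionRing.ringEquivOfRingEquiv (dilEquiv q hq)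

lemma sig_algebraMap (q : K) (hq : q ≠ 0) (p : K[X]) :
    sig q hq (algebraMap K[X] (RatFunc K) p) = algebraMap K[X] (RatFunc K) (dil q p) := by
  exact IsFractionRing.ringEquivOfRingEquiv_algebraMap (dilEquiv q hq) p

end

end Vale.Agent.P314
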