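import Vale.Agent.P314.Defs

/-!
# P314: the output format of the hitting-set generator

A list of tuples of square matrices over `F` is written as a string over the finite alphabet
`Tok` as follows.  Every field element `x` is written as its given binary encoding `code x`
followed by `sepE`; every row is followed by `sepR`; every matrix by `sepM`; every tuple by `sepT`
and preceded by its dimension `d` in unary and `sepE`.

* `printHS` : the string of a list of tuples;
* `printHS_injective` : the string determines the list (for an injective `code`);
* `printHS_singleton_eq` : the string of one tuple of `0/1` matrices given by a predicate, as a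
  concatenation over one single index `j < n * d * d`.
-/

namespace P314

/-! ### The string determines the list of tuples -/

section Injective

/-- A printer is prefix-free: the printed object can be read off a string that starts with it. -/
def PrefixFree {α : Type*} (p : α → List Tok) : Prop :=
  ∀ a b u v, p a ++ u = p b ++ v → a = b ∧ u = v

variable {F : Type*} {code : F → List Bool}

theorem bits_sep_inj (l l' : List Bool) (u v : List Tok)
    (h : l.map Tok.bit ++ Tok.sepE :: u = l'.map Tok.bit ++ Tok.sepE :: v) : l = l' ∧ u = v := by
  induction l generalizing l' with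
  | nil =>
    cases l' with
    | nil => simpa using h
    | cons b l' => simp at h
  | cons a l ih =>
    cases l' with
    | nil => simp at h
    | cons b l' =>
      simp only [List.map_cons, List.cons_append, List.cons.injEq, Tok.bit.injEq] at h
      obtain ⟨h1, h2⟩ := ih l' h.2
      exact ⟨by rw [h.1, h1], h2⟩

theorem prefixFree_entry (hc : Function.Injective code) : PrefixFree (printEntry code) := by
  intro a b u v h
  simp only [printEntry, List.append_assoc, List.cons_append, List.nil_append] at h
  obtain ⟨h1, h2⟩ := bits_sep_inj _ _ _ _ h
  exact ⟨hc h1, h2⟩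

theorem flatMap_inj_of_length {α : Type*} {p : α → List Tok} (hp : PrefixFree p)
    (l l' : List α) (hl : l.length = l'.length) (u v : List Tok)
    (h : l.flatMap p ++ u = l'.flatMap p ++ v) : l = l' ∧ u = v := by
  induction l generalizing l' with
  | nil =>
    cases l' with
    | nil => simpa using h
    | cons b l' => simp at hl
  | cons a l ih =>
    cases l' with
    | nil => simp at hl
    | cons b l' =>
      simp only [List.flatMap_cons, List.append_assoc] at h
      obtain ⟨h1, h2⟩ := hp _ _ _ _ h
      obtain ⟨h3, h4⟩ := ih l' (by simpa using hl) h2
      exact ⟨by rw [h1, h3], h4⟩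

theorem prefixFree_ofFn {α : Type*} {p : α → List Tok} (hp : PrefixFree p) (d : ℕ) (t : Tok) :
    PrefixFree (fun v : Fin d → α => (List.ofFn v).flatMap p ++ [t]) := by
  intro a b u v h
  simp only [List.append_assoc, List.cons_append, List.nil_append] at h
  obtain ⟨h1, h2⟩ := flatMap_inj_of_length hp _ _ (by simp) _ _ h
  exact ⟨List.ofFn_injective h1, (List.cons.inj h2).2⟩

theorem prefixFree_row (hc : Function.Injective code) (d : ℕ) :
    PrefixFree (printRow code (d := d)) :=
  prefixFree_ofFn (prefixFree_entry hc) d Tok.sepR

theorem prefixFree_mat (hc : Function.Injective code) (d : ℕ) :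
    PrefixFree (printMat code (d := d)) := by
  intro a b u v h
  obtain ⟨h1, h2⟩ := prefixFree_ofFn (prefixFree_row hc d) d Tok.sepM (fun r => a r)
    (fun r => b r) u v h
  exact ⟨by funext r; exact congrFun h1 r, h2⟩

theorem replicate_sep_inj (d e : ℕ) (u v : List Tok)
    (h : List.replicate d (Tok.bit true) ++ Tok.sepE :: u =
      List.replicate e (Tok.bit true) ++ Tok.sepE :: v) : d = e ∧ u = v := by
  have h' : (List.replicate d true).map Tok.bit ++ Tok.sepE :: u =
      (List.replicate e true).map Tok.bit ++ Tok.sepE :: v := by
    simpa [List.map_replicate] using h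
  obtain ⟨h1, h2⟩ := bits_sep_inj _ _ _ _ h'
  exact ⟨by simpa using congrArg List.length h1, h2⟩

theorem prefixFree_tuple (hc : Function.Injective code) (n : ℕ) :
    PrefixFree (printTuple code (n := n)) := by
  rintro ⟨d, a⟩ ⟨e, b⟩ u v h
  simp only [printTuple, List.append_assoc, List.cons_append, List.nil_append] at h
  obtain ⟨h1, h2⟩ := replicate_sep_inj _ _ _ _ h
  subst h1
  obtain ⟨h3, h4⟩ := prefixFree_ofFn (prefixFree_mat hc d) n Tok.sepT a b u v
    (by simpa only [List.append_assoc, List.cons_append, List.nil_append] using h2)
  exact ⟨by rw [h3], h4⟩

/-- The output string determines the list of tuples. -/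
theorem printHS_injective (hc : Function.Injective code) (n : ℕ) :
    Function.Injective (printHS code (n := n)) := by
  intro l
  induction l with
  | nil =>
    intro l' h
    cases l' with
    | nil => rfl
    | cons b l' => simp [printHS, printTuple] at h
  | cons a l ih =>
    intro l' h
    cases l' with
    | nil => simp [printHS, printTuple] at h
    | cons b l' =>
      simp only [printHS, List.flatMap_cons] at h
      obtain ⟨h1, h2⟩ := prefixFree_tuple hc n _ _ _ _ h
      rw [h1, ih h2]

end Injective

/-! ### One tuple of `0/1` matrices, printed with a single index -/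

section Flat

theorem flatMap_range_mul {α : Type*} (a b : ℕ) (f : ℕ → ℕ → List α) :
    (List.range (a * b)).flatMap (fun j => f (j / b) (j % b)) =
      (List.range a).flatMap (fun i => (List.range b).flatMap (fun k => f i k)) := by
  rcases Nat.eq_zero_or_pos b with rfl | hb
  · simp
  induction a with
  | zero => simp
  | succ a ih =>
    rw [List.range_succ, List.flatMap_append, Nat.succ_mul, List.range_add, List.flatMap_append,
      ih]
    congr 1
    simp only [List.flatMap_cons, List.flatMap_nil, List.append_nil, List.flatMap_map]
    apply List.flatMap_congr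
    intro k hk
    rw [List.mem_range] at hk
    rw [Nat.mul_comm a b, Nat.mul_add_div hb, Nat.div_eq_of_lt hk, Nat.mul_add_mod,
      Nat.mod_eq_of_lt hk, Nat.add_zero]

theorem flatMap_range_last {α : Type*} (b : ℕ) (hb : 0 < b) (g : ℕ → List α) (s : List α) :
    (List.range b).flatMap (fun k => g k ++ (if k + 1 = b then s else [])) =
      (List.range b).flatMap g ++ s := by
  obtain ⟨b, rfl⟩ : ∃ b', b = b' + 1 := ⟨b - 1, by omega⟩
  rw [List.range_succ, List.flatMap_append, List.flatMap_append]
  have h1 : (List.range b).flatMap (fun k => g k ++ (if k + 1 = b + 1 then s else [])) =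
      (List.range b).flatMap g := by
    apply List.flatMap_congr
    intro k hk
    rw [List.mem_range] at hk
    rw [if_neg (by omega), List.append_nil]
  rw [h1]
  simp

theorem flatMap_ofFn {α β : Type*} (d : ℕ) (v : Fin d → α) (w : ℕ → List β) (p : α → List β)
    (h : ∀ i : Fin d, p (v i) = w i) : (List.ofFn v).flatMap p = (List.range d).flatMap w := by
  have h1 : List.range d = (List.finRange d).map Fin.val := by
    apply List.ext_getElem
    · simp
    · intro i h1 h2
      simp
  rw [List.ofFn_eq_map, h1, List.flatMap_map, List.flatMap_map]
  apply List.flatMap_congr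
  intro i _
  exact h i

variable {F : Type*} [Zero F] [One F] (code : F → List Bool)

/-- The tuple of `0/1` matrices of size `d` given by a predicate on (matrix, row, column). -/
def tupleOf (n d : ℕ) (p : ℕ → ℕ → ℕ → Bool) : Fin n → Matrix (Fin d) (Fin d) F :=
  fun i => Matrix.of fun r c => if p i r c then 1 else 0

/-- The part of the output string belonging to the flat index `j = (i * d + r) * d + c`. -/
def cell (d : ℕ) (p : ℕ → ℕ → ℕ → Bool) (j : ℕ) : List Tok :=
  (if p (j / d / d) (j / d % d) (j % d) then (code 1).map Tok.bit else (code 0).map Tok.bit) ++
    [Tok.sepE] ++ (if j % d + 1 = d then [Tok.sepR] else []) ++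
      (if j % d + 1 = d ∧ j / d % d + 1 = d then [Tok.sepM] else [])

/-- **The string of one tuple of `0/1` matrices**, as a concatenation over one index. -/
theorem printHS_singleton_eq (n d : ℕ) (hd : 0 < d) (p : ℕ → ℕ → ℕ → Bool) :
    printHS code [(⟨d, tupleOf n d p⟩ : Σ d : ℕ, (Fin n → Matrix (Fin d) (Fin d) F))] =
      (List.range d).flatMap (fun _ => [Tok.bit true]) ++ [Tok.sepE] ++
        (List.range (n * d * d)).flatMap (cell code d p) ++ [Tok.sepT] := by
  have hrow : ∀ (i r : ℕ), ∀ v : Fin d → F, (∀ c : Fin d, v c = if p i r c then 1 else 0) →
      printRow code v = (List.range d).flatMap (fun c =>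
        (if p i r c then (code 1).map Tok.bit else (code 0).map Tok.bit) ++ [Tok.sepE] ++
          (if c + 1 = d then [Tok.sepR] else [])) := by
    intro i r v hv
    rw [flatMap_range_last d hd, printRow]
    congr 1
    apply flatMap_ofFn
    intro c
    rw [printEntry, hv c]
    split_ifs <;> rfl
  have hmat : ∀ (i : Fin n), printMat code (tupleOf (F := F) n d p i) =
      (List.range d).flatMap (fun r => (List.range d).flatMap (fun c =>
        (if p i r c then (code 1).map Tok.bit else (code 0).map Tok.bit) ++ [Tok.sepE] ++
          (if c + 1 = d then [Tok.sepR] else []) ++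
            (if c + 1 = d ∧ r + 1 = d then [Tok.sepM] else []))) := by
    intro i
    have h1 : ∀ r : ℕ, (List.range d).flatMap (fun c =>
        (if p i r c then (code 1).map Tok.bit else (code 0).map Tok.bit) ++ [Tok.sepE] ++
          (if c + 1 = d then [Tok.sepR] else []) ++
            (if c + 1 = d ∧ r + 1 = d then [Tok.sepM] else [])) =
        (List.range d).flatMap (fun c =>
        (if p i r c then (code 1).map Tok.bit else (code 0).map Tok.bit) ++ [Tok.sepE] ++
          (if c + 1 = d then [Tok.sepR] else [])) ++ (if r + 1 = d then [Tok.sepM] else []) := by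
      intro r
      rw [← flatMap_range_last d hd]
      apply List.flatMap_congr
      intro c _
      congr 1
      by_cases h1 : c + 1 = d <;> by_cases h2 : r + 1 = d <;> simp [h1, h2]
    simp only [h1]
    rw [flatMap_range_last d hd, printMat]
    congr 1
    apply flatMap_ofFn
    intro r
    apply hrow
    intro c
    rfl
  have htup : (List.ofFn (tupleOf (F := F) n d p)).flatMap (printMat code) =
      (List.range (n * d * d)).flatMap (cell code d p) := by
    rw [flatMap_ofFn n _ (fun i : ℕ => (List.range d).flatMap (fun r =>
      (List.range d).flatMap (fun c =>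
        (if p i r c then (code 1).map Tok.bit else (code 0).map Tok.bit) ++ [Tok.sepE] ++
          (if c + 1 = d then [Tok.sepR] else []) ++
            (if c + 1 = d ∧ r + 1 = d then [Tok.sepM] else [])))) _ hmat]
    have h1 := flatMap_range_mul (n * d) d (fun q c =>
        (if p (q / d) (q % d) c then (code 1).map Tok.bit else (code 0).map Tok.bit) ++
          [Tok.sepE] ++ (if c + 1 = d then [Tok.sepR] else []) ++
            (if c + 1 = d ∧ q % d + 1 = d then [Tok.sepM] else []))
    have h2 := flatMap_range_mul n d (fun i r => (List.range d).flatMap (fun c =>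
        (if p i r c then (code 1).map Tok.bit else (code 0).map Tok.bit) ++
          [Tok.sepE] ++ (if c + 1 = d then [Tok.sepR] else []) ++
            (if c + 1 = d ∧ r + 1 = d then [Tok.sepM] else [])))
    rw [← h2, ← h1]
    rfl
  simp only [printHS, List.flatMap_cons, List.flatMap_nil, List.append_nil, printTuple, htup]
  congr 3
  have : ∀ k : ℕ, List.replicate k (Tok.bit true) =
      (List.range k).flatMap (fun _ => [Tok.bit true]) := by
    intro k
    induction k with
    | zero => rfl
    | succ k ih => rw [List.range_succ, List.flatMap_append, ← ih, List.replicate_succ']; simp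
  exact this d

end Flat

end P314
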