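import Vale.Agent.P314.Format
import Vale.Agent.Lib.PolyTM.Arith
import Vale.Agent.Lib.PolyTM.Print

/-!
# P314: the printed hitting tuple, in the form needed by the printing theorem
-/

namespace P314

open PolyTM

/-- The `0/1` predicate of the hitting tuple: for the letter `i < n`, entry (row `r`, column `c`),
where an index `m * M + a` stands for the pair `(m, a)`, `M = (n + s + 1) ^ 6`. -/
def hitP (n s i r c : ℕ) : Bool :=
  decide (c / (n + s + 1) ^ 6 < r / (n + s + 1) ^ 6 ∧
    (r / (n + s + 1) ^ 6 - c / (n + s + 1) ^ 6) % n = (i + 1) % n ∧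
    c % (n + s + 1) ^ 6 ≤ r % (n + s + 1) ^ 6 ∧
    r / (n + s + 1) ^ 6 ∣ r % (n + s + 1) ^ 6 - c % (n + s + 1) ^ 6)

/-- The dimension of the hitting tuple. -/
def hitD (n s : ℕ) : ℕ := (n + s + 1) ^ 3 * (n + s + 1) ^ 6

theorem hitD_pos (n s : ℕ) : 0 < hitD n s := by
  unfold hitD; positivity

variable {A : Type} {k : ℕ}

theorem comp_hitP {N S I R C : (Fin k → ℕ) → ℕ} (hN : Comp A N) (hS : Comp A S) (hI : Comp A I)
    (hR : Comp A R) (hC : Comp A C) :
    Comp A (fun x => if hitP (N x) (S x) (I x) (R x) (C x) then 1 else 0) := by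
  have hM : Comp A (fun x => (N x + S x + 1) ^ 6) :=
    Comp.pow_const (Comp.add (Comp.add hN hS) (Comp.const 1)) 6
  refine Comp.congr (Comp.and_ind (Comp.lt_ind (Comp.div hC hM) (Comp.div hR hM))
    (Comp.and_ind (Comp.eq_ind (Comp.mod (Comp.sub (Comp.div hR hM) (Comp.div hC hM)) hN)
      (Comp.mod (Comp.add hI (Comp.const 1)) hN))
      (Comp.and_ind (Comp.le_ind (Comp.mod hC hM) (Comp.mod hR hM))
        (Comp.dvd_ind (Comp.sub (Comp.mod hR hM) (Comp.mod hC hM)) (Comp.div hR hM)))))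
    (fun x => ?_)
  simp only [hitP, decide_eq_true_eq]

theorem comp_hitD {N S : (Fin k → ℕ) → ℕ} (hN : Comp A N) (hS : Comp A S) :
    Comp A (fun x => hitD (N x) (S x)) :=
  Comp.mul (Comp.pow_const (Comp.add (Comp.add hN hS) (Comp.const 1)) 3)
    (Comp.pow_const (Comp.add (Comp.add hN hS) (Comp.const 1)) 6)

/-- The printed words belonging to one flat index `x 0`; the parameters are `n = x 1`,
`s = x 2`. -/
def hitBlock {F : Type*} [Zero F] [One F] (code : F → List Bool) :
    List (((Fin 3 → ℕ) → ℕ) × List Tok) :=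
  [ (fun x => if hitP (x 1) (x 2) (x 0 / hitD (x 1) (x 2) / hitD (x 1) (x 2))
      (x 0 / hitD (x 1) (x 2) % hitD (x 1) (x 2)) (x 0 % hitD (x 1) (x 2)) then 1 else 0,
      (code 1).map Tok.bit),
    (fun x => if ¬ (hitP (x 1) (x 2) (x 0 / hitD (x 1) (x 2) / hitD (x 1) (x 2))
      (x 0 / hitD (x 1) (x 2) % hitD (x 1) (x 2)) (x 0 % hitD (x 1) (x 2))) then 1 else 0,
      (code 0).map Tok.bit),
    (fun _ => 1, [Tok.sepE]),
    (fun x => if x 0 % hitD (x 1) (x 2) + 1 = hitD (x 1) (x 2) then 1 else 0, [Tok.sepR]),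
    (fun x => if x 0 % hitD (x 1) (x 2) + 1 = hitD (x 1) (x 2) ∧
      x 0 / hitD (x 1) (x 2) % hitD (x 1) (x 2) + 1 = hitD (x 1) (x 2) then 1 else 0,
      [Tok.sepM])]

/-- The segments of the printed hitting tuple. -/
def hitSegs {F : Type*} [Zero F] [One F] (code : F → List Bool) :
    List (((Fin 2 → ℕ) → ℕ) × List (((Fin 3 → ℕ) → ℕ) × List Tok)) :=
  [ (fun x => hitD (x 0) (x 1), [(fun _ => 1, [Tok.bit true])]),
    (fun _ => 1, [(fun _ => 1, [Tok.sepE])]),
    (fun x => x 0 * hitD (x 0) (x 1) * hitD (x 0) (x 1), hitBlock code),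
    (fun _ => 1, [(fun _ => 1, [Tok.sepT])])]

theorem hitSegs_comp {F : Type*} [Zero F] [One F] (code : F → List Bool) :
    ∀ sg ∈ hitSegs code, Comp A sg.1 ∧ ∀ ew ∈ sg.2, Comp A ew.1 := by
  have hD2 : Comp A (fun x : Fin 2 → ℕ => hitD (x 0) (x 1)) := comp_hitD (Comp.proj 0) (Comp.proj 1)
  have hD3 : Comp A (fun x : Fin 3 → ℕ => hitD (x 1) (x 2)) := comp_hitD (Comp.proj 1) (Comp.proj 2)
  have h1 : Comp A (fun _ : Fin 3 → ℕ => 1) := Comp.const 1
  have hj : Comp A (fun x : Fin 3 → ℕ => x 0) := Comp.proj 0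
  have hP : Comp A (fun x : Fin 3 → ℕ =>
      if hitP (x 1) (x 2) (x 0 / hitD (x 1) (x 2) / hitD (x 1) (x 2))
        (x 0 / hitD (x 1) (x 2) % hitD (x 1) (x 2)) (x 0 % hitD (x 1) (x 2)) then 1 else 0) :=
    comp_hitP (Comp.proj 1) (Comp.proj 2) (Comp.div (Comp.div hj hD3) hD3)
      (Comp.mod (Comp.div hj hD3) hD3) (Comp.mod hj hD3)
  have hR : Comp A (fun x : Fin 3 → ℕ =>
      if x 0 % hitD (x 1) (x 2) + 1 = hitD (x 1) (x 2) then 1 else 0) :=
    Comp.eq_ind (Comp.add (Comp.mod hj hD3) (Comp.const 1)) hD3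
  have hR' : Comp A (fun x : Fin 3 → ℕ =>
      if x 0 / hitD (x 1) (x 2) % hitD (x 1) (x 2) + 1 = hitD (x 1) (x 2) then 1 else 0) :=
    Comp.eq_ind (Comp.add (Comp.mod (Comp.div hj hD3) hD3) (Comp.const 1)) hD3
  have hone : ∀ t : Tok, ∀ ew ∈ [((fun _ => 1 : (Fin 3 → ℕ) → ℕ), [t])], Comp A ew.1 := by
    intro t ew hew
    simp only [List.mem_cons, List.not_mem_nil, or_false] at hew
    subst hew
    exact h1
  intro sg hsg
  simp only [hitSegs, List.mem_cons, List.not_mem_nil, or_false] at hsg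
  rcases hsg with rfl | rfl | rfl | rfl
  · exact ⟨hD2, hone _⟩
  · exact ⟨Comp.const 1, hone _⟩
  · refine ⟨Comp.mul (Comp.mul (Comp.proj 0) hD2) hD2, ?_⟩
    intro ew hew
    simp only [hitBlock, List.mem_cons, List.not_mem_nil, or_false] at hew
    rcases hew with rfl | rfl | rfl | rfl | rfl
    · exact hP
    · exact Comp.not_ind hP
    · exact h1
    · exact hR
    · exact Comp.and_ind hR hR'
  · exact ⟨Comp.const 1, hone _⟩

theorem cell_eq_block {F : Type*} [Zero F] [One F] (code : F → List Bool) (n s j : ℕ) :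
    cell code (hitD n s) (hitP n s) j = (hitBlock code).flatMap
        (fun ew => (List.replicate (ew.1 ![j, n, s]) ew.2).flatten) := by
  simp only [List.flatMap_cons, List.flatMap_nil, List.append_nil, cell, hitBlock,
    Matrix.cons_val_zero, Matrix.cons_val_one, Matrix.cons_val]
  by_cases h : hitP n s (j / hitD n s / hitD n s) (j / hitD n s % hitD n s) (j % hitD n s) = true
  all_goals
    by_cases h1 : j % hitD n s + 1 = hitD n s
    all_goals
      by_cases h2 : j / hitD n s % hitD n s + 1 = hitD n s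
      all_goals simp [h, h1, h2]

theorem printHS_hit {F : Type*} [Zero F] [One F] (code : F → List Bool) (n s : ℕ) :
    printHS code [(⟨hitD n s, tupleOf n (hitD n s) (hitP n s)⟩ :
      Σ d : ℕ, (Fin n → Matrix (Fin d) (Fin d) F))] = printStr (hitSegs code) n s := by
  rw [printHS_singleton_eq code n (hitD n s) (hitD_pos n s) (hitP n s)]
  have h1 : ∀ t : Tok, segStr (fun _ => 1) [(fun _ => 1, [t])] n s = [t] := by
    intro t
    simp [segStr]
  have h2 : segStr (fun x => hitD (x 0) (x 1)) [(fun _ => 1, [Tok.bit true])] n s =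
      (List.range (hitD n s)).flatMap (fun _ => [Tok.bit true]) := by
    simp [segStr]
  have h3 : segStr (fun x => x 0 * hitD (x 0) (x 1) * hitD (x 0) (x 1)) (hitBlock code) n s =
      (List.range (n * hitD n s * hitD n s)).flatMap (cell code (hitD n s) (hitP n s)) := by
    rw [segStr]
    apply List.flatMap_congr
    intro j _
    rw [cell_eq_block]
  rw [printStr]
  simp only [hitSegs, List.flatMap_cons, List.flatMap_nil, List.append_nil, h1, h2, h3,
    List.append_assoc]

/-- **The hitting tuple is printed in polynomial time** from the input `1^n 0^s`, by a Turing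
machine all of whose stack alphabets are finite, for every encoding of the field elements. -/
theorem hit_printable {F : Type*} [Zero F] [One F] (code : F → List Bool) :
    ∃ M : Turing.TM2ComputableInPolyTime
      (fun p : ℕ × ℕ => List.replicate p.1 (Tok.bit true) ++ List.replicate p.2 (Tok.bit false))
      id (fun p : ℕ × ℕ => printHS code [(⟨hitD p.1 p.2, tupleOf p.1 (hitD p.1 p.2)
        (hitP p.1 p.2)⟩ : Σ d : ℕ, (Fin p.1 → Matrix (Fin d) (Fin d) F))]),
      ∀ k, Finite (M.tm.Γ k) :=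
  print_computable (Tok.bit true) (Tok.bit false) (by simp) (hitSegs code) (hitSegs_comp code) _
    (fun n s => printHS_hit code n s)

end P314
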