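import Mathlib

/-! # P314: the operators `T_i` on power series and the explicit 0/1 matrices

`R = F⟦λ⟧`, the operators act on `R⟦t⟧`: `TT n i h = (1 - σ)⁻¹ (φ_i h)` where `σ : t ↦ λ t` and
`φ_i = t^(i+1) / (1 - t^n)`.  `hitM` is the truncation of these operators. -/

namespace Vale.Agent.P314

open PowerSeries Finset

noncomputable section

variable {F : Type*} [Field F]

/-- `1 / (1 - λ^m)` -/
def geo (m : ℕ) : PowerSeries F := PowerSeries.mk fun a => if m ∣ a then 1 else 0

/-- `(1 - σ)⁻¹` on power series in `t` (constant term dropped) -/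
def JJ (w : PowerSeries (PowerSeries F)) : PowerSeries (PowerSeries F) :=
  PowerSeries.mk fun m => if m = 0 then 0 else geo m * coeff m w

/-- `t^(i+1) / (1 - t^n)` -/
def phiS (n : ℕ) (i : Fin n) : PowerSeries (PowerSeries F) :=
  PowerSeries.mk fun k => if k ≠ 0 ∧ k % n = (i.val + 1) % n then 1 else 0

theorem JJ_add (u v : PowerSeries (PowerSeries F)) : JJ (u + v) = JJ u + JJ v := by
  ext1 m
  simp only [JJ, coeff_mk, map_add]
  by_cases h : m = 0
  · simp [h]
  · simp only [if_neg h, mul_add]

theorem JJ_smul (c : F) (u : PowerSeries (PowerSeries F)) : JJ (c • u) = c • JJ u := by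
  ext1 m
  rw [LinearMap.map_smul_of_tower]
  simp only [JJ, coeff_mk]
  rw [LinearMap.map_smul_of_tower]
  by_cases h : m = 0
  · simp [h]
  · simp only [if_neg h, mul_smul_comm]

/-- the operator attached to the letter `i` -/
def TT (n : ℕ) (i : Fin n) : Module.End F (PowerSeries (PowerSeries F)) where
  toFun h := JJ (phiS n i * h)
  map_add' u v := by rw [mul_add, JJ_add]
  map_smul' c u := by rw [mul_smul_comm, JJ_smul]; rfl

theorem TT_apply (n : ℕ) (i : Fin n) (h : PowerSeries (PowerSeries F)) : TT n i h = JJ (phiS n i * h) := rfl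

theorem geo_mul (m : ℕ) (hm : 0 < m) : (geo m : PowerSeries F) * (1 - X ^ m) = 1 := by
  ext a
  rw [mul_sub, mul_one, map_sub, coeff_mul_X_pow', coeff_one]
  simp only [geo, coeff_mk]
  by_cases h0 : a = 0
  · subst h0
    simp [hm.ne']
  · by_cases h1 : m ≤ a
    · rw [if_pos h1, if_neg h0]
      have : m ∣ a - m ↔ m ∣ a := by
        conv_rhs => rw [show a = (a - m) + m by omega]
        exact (Nat.dvd_add_left (dvd_refl m)).symm
      simp only [this, sub_self]
    · rw [if_neg h1, if_neg h0, sub_zero, if_neg]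
      intro hd
      exact h1 (Nat.le_of_dvd (Nat.pos_of_ne_zero h0) hd)

theorem coeff_TT (n : ℕ) (i : Fin n) (h : PowerSeries (PowerSeries F)) (m : ℕ) :
    coeff m (TT n i h) = if m = 0 then 0 else geo m * coeff m (phiS n i * h) := by
  rw [TT_apply]
  simp only [JJ, coeff_mk]

theorem constantCoeff_TT (n : ℕ) (i : Fin n) (h : PowerSeries (PowerSeries F)) :
    constantCoeff (TT n i h) = 0 := by
  rw [← coeff_zero_eq_constantCoeff_apply, coeff_TT, if_pos rfl]

theorem TT_sub_rescale (n : ℕ) (i : Fin n) (h : PowerSeries (PowerSeries F)) :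
    TT n i h - rescale (X : PowerSeries F) (TT n i h) = phiS n i * h := by
  ext1 m
  rw [map_sub, coeff_rescale, coeff_TT]
  by_cases hm : m = 0
  · subst hm
    rw [if_pos rfl, mul_zero, sub_zero, coeff_zero_eq_constantCoeff, map_mul]
    have : constantCoeff (phiS (F := F) n i) = 0 := by
      rw [← coeff_zero_eq_constantCoeff_apply]
      simp [phiS]
    rw [this, zero_mul]
  · rw [if_neg hm]
    have h1 := geo_mul (F := F) m (Nat.pos_of_ne_zero hm)
    calc geo m * coeff m (phiS n i * h) - X ^ m * (geo m * coeff m (phiS n i * h))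
        = (geo m * (1 - X ^ m)) * coeff m (phiS n i * h) := by ring
      _ = coeff m (phiS n i * h) := by rw [h1, one_mul]

theorem phiS_eq (n : ℕ) (i : Fin n) :
    (1 - X ^ n) * (phiS n i : PowerSeries (PowerSeries F)) = X ^ (i.val + 1) := by
  have hi := i.isLt
  ext1 k
  rw [sub_mul, one_mul, map_sub, coeff_X_pow_mul', coeff_X_pow]
  simp only [phiS, coeff_mk]
  rcases lt_trichotomy k n with h | h | h
  · rw [if_neg (by omega : ¬ n ≤ k), sub_zero]
    by_cases h2 : k = i.val + 1
    · rw [if_pos h2, if_pos]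
      refine ⟨by omega, by rw [h2]⟩
    · rw [if_neg h2, if_neg]
      rintro ⟨h3, h4⟩
      rw [Nat.mod_eq_of_lt h] at h4
      rcases Nat.lt_or_ge (i.val + 1) n with h5 | h5
      · rw [Nat.mod_eq_of_lt h5] at h4
        exact h2 h4
      · have h6 : i.val + 1 = n := by omega
        rw [h6, Nat.mod_self] at h4
        exact h3 h4
  · subst h
    rw [if_pos (le_refl k), Nat.sub_self]
    have h1 : ¬ ((0 : ℕ) ≠ 0 ∧ 0 % k = (i.val + 1) % k) := by simp
    rw [if_neg h1, sub_zero, Nat.mod_self]
    by_cases h2 : k = i.val + 1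
    · rw [if_pos h2, if_pos]
      refine ⟨by omega, by rw [← h2, Nat.mod_self]⟩
    · rw [if_neg h2, if_neg]
      rintro ⟨_, h4⟩
      rw [Nat.mod_eq_of_lt (by omega)] at h4
      omega
  · rw [if_pos (by omega : n ≤ k), if_neg (by omega : ¬ k = i.val + 1)]
    have h1 : (k - n) % n = k % n := by
      conv_rhs => rw [show k = (k - n) + n by omega, Nat.add_mod_right]
    have h2 : (k ≠ 0 ∧ k % n = (i.val + 1) % n) ↔ (k - n ≠ 0 ∧ (k - n) % n = (i.val + 1) % n) := by
      rw [h1]
      constructor
      · rintro ⟨_, h3⟩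
        exact ⟨by omega, h3⟩
      · rintro ⟨_, h3⟩
        exact ⟨by omega, h3⟩
    rw [if_congr h2 rfl rfl, sub_self]

/-- (a) the `q`-difference equation -/
theorem TT_eq (n : ℕ) (i : Fin n) (h : PowerSeries (PowerSeries F)) :
    (1 - X ^ n) * (TT n i h - rescale (X : PowerSeries F) (TT n i h)) = X ^ (i.val + 1) * h := by
  rw [TT_sub_rescale, ← mul_assoc, phiS_eq]

/-! ### The matrices -/

/-- the explicit 0/1 matrices -/
def hitM (F : Type*) [Field F] (n A M : ℕ) (i : Fin n) : Matrix (Fin (A * M)) (Fin (A * M)) F :=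
  Matrix.of fun x y =>
    if y.val / M < x.val / M ∧ (x.val / M - y.val / M) % n = (i.val + 1) % n ∧
      y.val % M ≤ x.val % M ∧ x.val / M ∣ (x.val % M - y.val % M) then 1 else 0

/-- truncation of a double power series -/
def trunc2 (F : Type*) [Field F] (A M : ℕ) : PowerSeries (PowerSeries F) →ₗ[F] (Fin (A * M) → F) where
  toFun h := fun x => coeff (x.val % M) (coeff (x.val / M) h)
  map_add' u v := by
    funext x
    simp
  map_smul' c u := by
    funext x
    rw [LinearMap.map_smul_of_tower]
    simp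

theorem trunc2_apply (A M : ℕ) (h : PowerSeries (PowerSeries F)) (x : Fin (A * M)) :
    trunc2 F A M h x = coeff (x.val % M) (coeff (x.val / M) h) := rfl

/-- the coefficients of `TT n i h` as double sums -/
theorem coeff_coeff_TT (n : ℕ) (i : Fin n) (h : PowerSeries (PowerSeries F)) (A M m a : ℕ) (hmA : m < A)
    (haM : a < M) :
    coeff a (coeff m (TT n i h)) = ∑ k ∈ range A, ∑ b ∈ range M,
      (if k < m ∧ (m - k) % n = (i.val + 1) % n ∧ b ≤ a ∧ m ∣ (a - b) then (1 : F) else 0) *
        coeff b (coeff k h) := by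
  rw [coeff_TT]
  by_cases hm : m = 0
  · subst hm
    rw [if_pos rfl, map_zero]
    symm
    apply Finset.sum_eq_zero
    intro k _
    apply Finset.sum_eq_zero
    intro b _
    rw [if_neg (by omega), zero_mul]
  · rw [if_neg hm]
    have h1 : coeff m (phiS n i * h) = ∑ k ∈ range A,
        (if k < m ∧ (m - k) % n = (i.val + 1) % n then coeff k h else 0) := by
      rw [coeff_mul, Finset.Nat.sum_antidiagonal_eq_sum_range_succ
        (f := fun a b => coeff a (phiS n i) * coeff b h)]
      rw [← Finset.sum_range_reflect]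
      have h2 : range (m + 1) ⊆ range A := Finset.range_subset_range.2 (by omega)
      rw [← Finset.sum_subset h2]
      · apply Finset.sum_congr rfl
        intro k hk
        rw [Finset.mem_range] at hk
        have h3 : m + 1 - 1 - k = m - k := by omega
        rw [h3, show m - (m - k) = k by omega]
        simp only [phiS, coeff_mk]
        by_cases h4 : k < m ∧ (m - k) % n = (i.val + 1) % n
        · rw [if_pos h4, if_pos ⟨by omega, h4.2⟩, one_mul]
        · rw [if_neg h4, if_neg, zero_mul]
          rintro ⟨h5, h6⟩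
          exact h4 ⟨by omega, h6⟩
      · intro k _ hk
        rw [Finset.mem_range] at hk
        rw [if_neg (by omega)]
    rw [h1, Finset.mul_sum, map_sum]
    apply Finset.sum_congr rfl
    intro k _
    by_cases h4 : k < m ∧ (m - k) % n = (i.val + 1) % n
    · rw [if_pos h4, coeff_mul, Finset.Nat.sum_antidiagonal_eq_sum_range_succ
        (f := fun c b => coeff c (geo m) * coeff b (coeff k h))]
      rw [← Finset.sum_range_reflect]
      have h2 : range (a + 1) ⊆ range M := Finset.range_subset_range.2 (by omega)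
      rw [← Finset.sum_subset h2]
      · apply Finset.sum_congr rfl
        intro b hb
        rw [Finset.mem_range] at hb
        have h3 : a + 1 - 1 - b = a - b := by omega
        rw [h3, show a - (a - b) = b by omega]
        simp only [geo, coeff_mk]
        by_cases h5 : m ∣ (a - b)
        · rw [if_pos h5, if_pos ⟨h4.1, h4.2, by omega, h5⟩]
        · rw [if_neg h5, if_neg (fun h6 => h5 h6.2.2.2)]
      · intro b _ hb
        rw [Finset.mem_range] at hb
        rw [if_neg (by omega), zero_mul]
    · rw [if_neg h4, mul_zero, map_zero]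
      symm
      apply Finset.sum_eq_zero
      intro b _
      rw [if_neg (fun h6 => h4 ⟨h6.1, h6.2.1⟩), zero_mul]

theorem trunc2_TT (n A M : ℕ) (i : Fin n) (h : PowerSeries (PowerSeries F)) :
    trunc2 F A M (TT n i h) = (hitM F n A M i).mulVec (trunc2 F A M h) := by
  funext x
  have hlt : x.val < A * M := x.isLt
  have hM : 0 < M := Nat.pos_of_mul_pos_left (Nat.lt_of_le_of_lt (Nat.zero_le _) hlt)
  have hxA : x.val / M < A := Nat.div_lt_of_lt_mul (by rw [Nat.mul_comm M A]; exact hlt)
  have hxM : x.val % M < M := Nat.mod_lt _ hM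
  rw [trunc2_apply, coeff_coeff_TT n i h A M _ _ hxA hxM]
  unfold Matrix.mulVec dotProduct
  rw [← finProdFinEquiv.sum_comp, Fintype.sum_prod_type, ← Fin.sum_univ_eq_sum_range
    (fun k => ∑ b ∈ range M,
      (if k < x.val / M ∧ (x.val / M - k) % n = (i.val + 1) % n ∧ b ≤ x.val % M ∧
        x.val / M ∣ (x.val % M - b) then (1 : F) else 0) * coeff b (coeff k h))]
  apply Finset.sum_congr rfl
  intro k _
  rw [← Fin.sum_univ_eq_sum_range
    (fun b => (if k.val < x.val / M ∧ (x.val / M - k.val) % n = (i.val + 1) % n ∧ b ≤ x.val % M ∧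
        x.val / M ∣ (x.val % M - b) then (1 : F) else 0) * coeff b (coeff k.val h))]
  apply Finset.sum_congr rfl
  intro b _
  have e1 : (finProdFinEquiv (k, b)).val / M = k.val := by
    rw [finProdFinEquiv_apply_val]
    rw [Nat.add_mul_div_left _ _ hM, Nat.div_eq_of_lt b.isLt, Nat.zero_add]
  have e2 : (finProdFinEquiv (k, b)).val % M = b.val := by
    rw [finProdFinEquiv_apply_val]
    rw [Nat.add_mul_mod_self_left, Nat.mod_eq_of_lt b.isLt]
  rw [trunc2_apply, e1, e2]
  simp only [hitM, Matrix.of_apply, e1, e2]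

theorem trunc2_lift (n A M : ℕ) (g : FreeAlgebra F (Fin n)) :
    ∀ h : PowerSeries (PowerSeries F), trunc2 F A M ((FreeAlgebra.lift F (TT n)) g h)
      = ((FreeAlgebra.lift F (hitM F n A M)) g).mulVec (trunc2 F A M h) := by
  induction g using FreeAlgebra.induction with
  | grade0 r =>
    intro h
    rw [AlgHom.commutes, AlgHom.commutes, Module.algebraMap_end_apply, map_smul,
      Matrix.algebraMap_eq_diagonal]
    funext x
    rw [Matrix.mulVec_diagonal]
    simp
  | grade1 i =>
    intro h
    rw [FreeAlgebra.lift_ι_apply, FreeAlgebra.lift_ι_apply]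
    exact trunc2_TT n A M i h
  | mul a b iha ihb =>
    intro h
    rw [map_mul, map_mul, Module.End.mul_apply, iha, ihb, Matrix.mulVec_mulVec]
  | add a b iha ihb =>
    intro h
    rw [map_add, map_add, LinearMap.add_apply, map_add, iha, ihb, Matrix.add_mulVec]

theorem trunc2_one (A M : ℕ) (hAM : 0 < A * M) :
    trunc2 F A M 1 = Pi.single (⟨0, hAM⟩ : Fin (A * M)) 1 := by
  have hM : 0 < M := Nat.pos_of_mul_pos_left hAM
  funext x
  rw [trunc2_apply, coeff_one]
  by_cases hx : x = ⟨0, hAM⟩
  · subst hx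
    simp
  · rw [Pi.single_eq_of_ne hx]
    have hx' : x.val ≠ 0 := by
      intro h0
      apply hx
      ext
      exact h0
    by_cases h1 : x.val / M = 0
    · rw [if_pos h1, coeff_one, if_neg]
      intro h2
      apply hx'
      have := Nat.div_add_mod x.val M
      rw [h1, h2, Nat.mul_zero] at this
      exact this.symm
    · rw [if_neg h1, map_zero]

/-- (c) column `0` of the matrix evaluation is the truncation of the power series -/
theorem hitM_apply (n A M : ℕ) (hAM : 0 < A * M) (g : FreeAlgebra F (Fin n)) (x : Fin (A * M)) :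
    ((FreeAlgebra.lift F (hitM F n A M)) g) x ⟨0, hAM⟩
      = coeff (x.val % M) (coeff (x.val / M) ((FreeAlgebra.lift F (TT n)) g 1)) := by
  rw [← trunc2_apply A M ((FreeAlgebra.lift F (TT n)) g 1) x, trunc2_lift, trunc2_one A M hAM,
    Matrix.mulVec_single_one]
  rfl

/-! ### The order in `λ` -/

/-- the common denominator -/
def DD (F : Type*) [Field F] (m : ℕ) : PowerSeries F := ∏ j ∈ range m, (1 - X ^ (j + 1))

theorem DD_ne_zero (m : ℕ) : DD F m ≠ 0 := by
  unfold DD
  apply Finset.prod_ne_zero_iff.2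
  intro j _ h
  have : constantCoeff ((1 : PowerSeries F) - X ^ (j + 1)) = 0 := by rw [h, map_zero]
  simp at this

theorem DD_succ (m : ℕ) : DD F (m + 1) = DD F m * (1 - X ^ (m + 1)) := by
  unfold DD
  rw [Finset.prod_range_succ]

/-- triangular numbers -/
def tri (m : ℕ) : ℕ := ∑ j ∈ range m, (j + 1)

theorem tri_succ (m : ℕ) : tri (m + 1) = tri m + (m + 1) := by
  unfold tri
  rw [Finset.sum_range_succ]

theorem tri_le (m : ℕ) : tri m ≤ m * m := by
  induction m with
  | zero => simp [tri]
  | succ m ih =>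
    rw [tri_succ]
    nlinarith

/-- `u` is a polynomial of degree at most `d` -/
def IsPol (d : ℕ) (u : PowerSeries F) : Prop := ∃ p : Polynomial F, p.natDegree ≤ d ∧ u = (p : PowerSeries F)

theorem IsPol.mono {d e : ℕ} (h : d ≤ e) {u : PowerSeries F} (hu : IsPol d u) : IsPol e u := by
  obtain ⟨p, h1, h2⟩ := hu
  exact ⟨p, h1.trans h, h2⟩

theorem IsPol.zero (d : ℕ) : IsPol d (0 : PowerSeries F) := ⟨0, by simp, by simp⟩

theorem IsPol.add {d : ℕ} {u v : PowerSeries F} (hu : IsPol d u) (hv : IsPol d v) : IsPol d (u + v) := by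
  obtain ⟨p, h1, rfl⟩ := hu
  obtain ⟨q, h3, rfl⟩ := hv
  exact ⟨p + q, (Polynomial.natDegree_add_le p q).trans (max_le h1 h3), by simp⟩

theorem IsPol.smul {d : ℕ} {u : PowerSeries F} (c : F) (hu : IsPol d u) : IsPol d (c • u) := by
  obtain ⟨p, h1, rfl⟩ := hu
  refine ⟨c • p, (Polynomial.natDegree_smul_le c p).trans h1, ?_⟩
  ext a
  simp

theorem IsPol.sum {ι : Type*} {d : ℕ} (s : Finset ι) (u : ι → PowerSeries F) (hu : ∀ i ∈ s, IsPol d (u i)) :
    IsPol d (∑ i ∈ s, u i) := by
  classical
  induction s using Finset.induction_on with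
  | empty => simpa using IsPol.zero d
  | insert a s ha ih =>
    rw [Finset.sum_insert ha]
    exact (hu a (Finset.mem_insert_self a s)).add (ih fun i hi => hu i (Finset.mem_insert_of_mem hi))

theorem IsPol.mul_one_sub {d : ℕ} {u : PowerSeries F} (k : ℕ) (hu : IsPol d u) :
    IsPol (d + k) (u * (1 - X ^ k)) := by
  obtain ⟨p, h1, rfl⟩ := hu
  refine ⟨p * (1 - Polynomial.X ^ k), ?_, by simp⟩
  refine (Polynomial.natDegree_mul_le).trans ?_
  apply Nat.add_le_add h1
  refine (Polynomial.natDegree_sub_le _ _).trans ?_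
  simp

/-- all coefficients have the controlled denominators -/
def Good (w : PowerSeries (PowerSeries F)) : Prop := ∀ m, IsPol (tri m) (coeff m w * DD F m)

theorem Good.up {w : PowerSeries (PowerSeries F)} (hw : Good w) (j m : ℕ) (h : j ≤ m) :
    IsPol (tri m) (coeff j w * DD F m) := by
  induction m, h using Nat.le_induction with
  | base => exact hw j
  | succ m _ ih =>
    rw [DD_succ, ← mul_assoc, tri_succ]
    exact ih.mul_one_sub (m + 1)

theorem Good.one : Good (1 : PowerSeries (PowerSeries F)) := by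
  intro m
  rw [coeff_one]
  by_cases h : m = 0
  · subst h
    refine ⟨1, by simp, ?_⟩
    simp [DD]
  · rw [if_neg h, zero_mul]
    exact IsPol.zero _

theorem Good.add {u v : PowerSeries (PowerSeries F)} (hu : Good u) (hv : Good v) : Good (u + v) := by
  intro m
  rw [map_add, add_mul]
  exact (hu m).add (hv m)

theorem Good.smul {u : PowerSeries (PowerSeries F)} (c : F) (hu : Good u) : Good (c • u) := by
  intro m
  rw [LinearMap.map_smul_of_tower, smul_mul_assoc]
  exact (hu m).smul c

theorem Good.TT {u : PowerSeries (PowerSeries F)} (hu : Good u) (n : ℕ) (i : Fin n) :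
    Good (Vale.Agent.P314.TT n i u) := by
  intro m
  rw [coeff_TT]
  cases m with
  | zero =>
    rw [if_pos rfl, zero_mul]
    exact IsPol.zero _
  | succ m =>
    rw [if_neg (Nat.succ_ne_zero m), DD_succ]
    have h1 := geo_mul (F := F) (m + 1) (Nat.succ_pos m)
    have h2 : geo (m + 1) * coeff (m + 1) (phiS n i * u) * (DD F m * (1 - X ^ (m + 1)))
        = coeff (m + 1) (phiS n i * u) * DD F m := by
      calc geo (m + 1) * coeff (m + 1) (phiS n i * u) * (DD F m * (1 - X ^ (m + 1)))
          = (geo (m + 1) * (1 - X ^ (m + 1))) * (coeff (m + 1) (phiS n i * u) * DD F m) := by ring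
        _ = _ := by rw [h1, one_mul]
    rw [h2, coeff_mul, Finset.sum_mul]
    apply IsPol.mono (d := tri m) (by rw [tri_succ]; omega)
    apply IsPol.sum
    rintro ⟨a, b⟩ hab
    rw [Finset.HasAntidiagonal.mem_antidiagonal] at hab
    simp only at hab ⊢
    simp only [phiS, coeff_mk]
    by_cases h3 : a ≠ 0 ∧ a % n = (i.val + 1) % n
    · rw [if_pos h3, one_mul]
      exact hu.up b m (by omega)
    · rw [if_neg h3, zero_mul, zero_mul]
      exact IsPol.zero _

theorem Good.lift (n : ℕ) (g : FreeAlgebra F (Fin n)) :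
    ∀ u : PowerSeries (PowerSeries F), Good u → Good ((FreeAlgebra.lift F (Vale.Agent.P314.TT n)) g u) := by
  induction g using FreeAlgebra.induction with
  | grade0 r =>
    intro u hu
    rw [AlgHom.commutes, Module.algebraMap_end_apply]
    exact hu.smul r
  | grade1 i =>
    intro u hu
    rw [FreeAlgebra.lift_ι_apply]
    exact hu.TT n i
  | mul a b iha ihb =>
    intro u hu
    rw [map_mul, Module.End.mul_apply]
    exact iha _ (ihb _ hu)
  | add a b iha ihb =>
    intro u hu
    rw [map_add, LinearMap.add_apply]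
    exact (iha _ hu).add (ihb _ hu)

/-- (d) the order in `λ` of a nonzero coefficient is at most `m * m` -/
theorem lam_order {F : Type*} [Field F] (n : ℕ) (g : FreeAlgebra F (Fin n)) (m : ℕ)
    (h : coeff m ((FreeAlgebra.lift F (TT (F := F) n)) g 1) ≠ 0) :
    ∃ a : ℕ, a ≤ m * m ∧ coeff a (coeff m ((FreeAlgebra.lift F (TT (F := F) n)) g 1)) ≠ 0 := by
  by_contra hcon
  push Not at hcon
  obtain ⟨p, hp1, hp2⟩ := Good.lift n g 1 Good.one m
  have hp0 : p ≠ 0 := by
    intro h0
    rw [h0, Polynomial.coe_zero] at hp2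
    rcases mul_eq_zero.1 hp2 with h1 | h1
    · exact h h1
    · exact DD_ne_zero (F := F) m h1
  have h3 : p.coeff p.natDegree = 0 := by
    rw [← Polynomial.coeff_coe, ← hp2, coeff_mul]
    apply Finset.sum_eq_zero
    rintro ⟨a, b⟩ hab
    rw [Finset.HasAntidiagonal.mem_antidiagonal] at hab
    simp only at hab ⊢
    rw [hcon a (by have := tri_le m; omega), zero_mul]
  rw [Polynomial.coeff_natDegree, Polynomial.leadingCoeff_eq_zero] at h3
  exact hp0 h3

end

end Vale.Agent.P314
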