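import Vale.Agent.P314.Defs

/-! # P314: noncommutative formulas, left quotients, and the quotient space of a formula -/

namespace Vale.Agent.P314

open _root_.P314 (NCFormula)

noncomputable section

variable {F : Type*} [Field F] {n : ℕ}

/-- The constant term. -/
def eps : FreeAlgebra F (Fin n) →ₐ[F] F := FreeAlgebra.lift F (fun _ => 0)

lemma eps_iota (j : Fin n) : eps (FreeAlgebra.ι F j) = 0 := by
  unfold eps
  rw [FreeAlgebra.lift_ι_apply]

lemma eps_algebraMap (c : F) : eps (algebraMap F (FreeAlgebra F (Fin n)) c) = c := by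
  rw [AlgHom.commutes]
  rfl

/-- The triangular representation whose corner is the left quotient by the letter `i`. -/
def qmat (i : Fin n) : FreeAlgebra F (Fin n) →ₐ[F] Matrix (Fin 2) (Fin 2) (FreeAlgebra F (Fin n)) :=
  FreeAlgebra.lift F (fun j => !![0, if i = j then 1 else 0; 0, FreeAlgebra.ι F j])

/-- The left quotient by the letter `i`: it removes the first letter `i` of the monomials that start with `i` and kills the
other monomials. -/
def dq (i : Fin n) : FreeAlgebra F (Fin n) →ₗ[F] FreeAlgebra F (Fin n) where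
  toFun a := qmat i a 0 1
  map_add' a b := by rw [map_add, Matrix.add_apply]
  map_smul' c a := by rw [map_smul, Matrix.smul_apply]; rfl

lemma qmat_eq (i : Fin n) (a : FreeAlgebra F (Fin n)) :
    qmat i a 0 0 = algebraMap F (FreeAlgebra F (Fin n)) (eps a) ∧ qmat i a 1 0 = 0 ∧ qmat i a 1 1 = a := by
  induction a using FreeAlgebra.induction with
  | grade0 r =>
    rw [AlgHom.commutes, eps_algebraMap, Matrix.algebraMap_eq_diagonal]
    refine ⟨?_, ?_, ?_⟩ <;> simp
  | grade1 x =>
    unfold qmat
    rw [FreeAlgebra.lift_ι_apply, eps_iota, map_zero]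
    refine ⟨?_, ?_, ?_⟩ <;> simp
  | mul a b ha hb =>
    rw [map_mul, map_mul, map_mul, Matrix.mul_apply, Matrix.mul_apply, Matrix.mul_apply, Fin.sum_univ_two,
      Fin.sum_univ_two, Fin.sum_univ_two]
    obtain ⟨a1, a2, a3⟩ := ha
    obtain ⟨b1, b2, b3⟩ := hb
    rw [a1, a2, a3, b1, b2, b3]
    refine ⟨?_, ?_, ?_⟩ <;> simp
  | add a b ha hb =>
    rw [map_add, map_add, map_add, Matrix.add_apply, Matrix.add_apply, Matrix.add_apply]
    obtain ⟨a1, a2, a3⟩ := ha
    obtain ⟨b1, b2, b3⟩ := hb
    rw [a1, a2, a3, b1, b2, b3]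
    refine ⟨?_, ?_, ?_⟩ <;> simp

lemma dq_algebraMap (i : Fin n) (c : F) : dq i (algebraMap F (FreeAlgebra F (Fin n)) c) = 0 := by
  change qmat i (algebraMap F (FreeAlgebra F (Fin n)) c) 0 1 = 0
  rw [AlgHom.commutes, Matrix.algebraMap_eq_diagonal]
  simp

lemma dq_one (i : Fin n) : dq i (1 : FreeAlgebra F (Fin n)) = 0 := by
  have := dq_algebraMap (F := F) i (1 : F)
  rwa [map_one] at this

lemma dq_iota (i j : Fin n) : dq i (FreeAlgebra.ι F j) = if i = j then 1 else 0 := by
  change qmat i (FreeAlgebra.ι F j) 0 1 = _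
  unfold qmat
  rw [FreeAlgebra.lift_ι_apply]
  simp

lemma dq_mul (i : Fin n) (a b : FreeAlgebra F (Fin n)) : dq i (a * b) = dq i a * b + eps a • dq i b := by
  change qmat i (a * b) 0 1 = qmat i a 0 1 * b + eps a • qmat i b 0 1
  rw [map_mul, Matrix.mul_apply, Fin.sum_univ_two, (qmat_eq i a).1, (qmat_eq i b).2.2, Algebra.smul_def, add_comm]

lemma dq_iota_mul (i j : Fin n) (b : FreeAlgebra F (Fin n)) :
    dq i (FreeAlgebra.ι F j * b) = if i = j then b else 0 := by
  rw [dq_mul, dq_iota, eps_iota, zero_smul, add_zero]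
  split_ifs
  · rw [one_mul]
  · rw [zero_mul]

/-- Every noncommutative polynomial is its constant term plus the sum of `x i` times its left quotients. -/
theorem decomp (a : FreeAlgebra F (Fin n)) :
    a = algebraMap F (FreeAlgebra F (Fin n)) (eps a) + ∑ i, FreeAlgebra.ι F i * dq i a := by
  induction a using FreeAlgebra.induction with
  | grade0 r =>
    rw [eps_algebraMap]
    simp [dq_algebraMap]
  | grade1 x =>
    rw [eps_iota, map_zero, zero_add]
    simp [dq_iota]
  | mul a b ha hb =>
    have h1 : ∀ i : Fin n, FreeAlgebra.ι F i * dq i (a * b) =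
        (FreeAlgebra.ι F i * dq i a) * b + eps a • (FreeAlgebra.ι F i * dq i b) := by
      intro i
      rw [dq_mul, mul_add, mul_assoc, mul_smul_comm]
    rw [Finset.sum_congr rfl fun i _ => h1 i, Finset.sum_add_distrib, ← Finset.sum_mul, ← Finset.smul_sum]
    have h2 : ∑ i, FreeAlgebra.ι F i * dq i a = a - algebraMap F (FreeAlgebra F (Fin n)) (eps a) := by
      rw [eq_sub_iff_add_eq, add_comm]
      exact ha.symm
    have h3 : ∑ i, FreeAlgebra.ι F i * dq i b = b - algebraMap F (FreeAlgebra F (Fin n)) (eps b) := by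
      rw [eq_sub_iff_add_eq, add_comm]
      exact hb.symm
    rw [h2, h3, map_mul, map_mul, Algebra.smul_def]
    noncomm_ring
  | add a b ha hb =>
    have h1 : ∀ i : Fin n, FreeAlgebra.ι F i * dq i (a + b) =
        FreeAlgebra.ι F i * dq i a + FreeAlgebra.ι F i * dq i b := by
      intro i
      rw [map_add, mul_add]
    rw [Finset.sum_congr rfl fun i _ => h1 i, Finset.sum_add_distrib, map_add, map_add]
    nth_rewrite 1 [ha]
    nth_rewrite 1 [hb]
    abel

/-- Iterated left quotients: the last letter of the list is removed first. -/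
def dqw : List (Fin n) → FreeAlgebra F (Fin n) → FreeAlgebra F (Fin n)
  | [], a => a
  | i :: w, a => dq i (dqw w a)

@[simp] lemma dqw_nil' (a : FreeAlgebra F (Fin n)) : dqw [] a = a := rfl

@[simp] lemma dqw_cons (i : Fin n) (w : List (Fin n)) (a : FreeAlgebra F (Fin n)) :
    dqw (i :: w) a = dq i (dqw w a) := rfl

lemma dqw_append (w w' : List (Fin n)) (a : FreeAlgebra F (Fin n)) : dqw (w ++ w') a = dqw w (dqw w' a) := by
  induction w with
  | nil => rfl
  | cons i w ih => rw [List.cons_append, dqw_cons, dqw_cons, ih]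

lemma dqw_zero (w : List (Fin n)) : dqw w (0 : FreeAlgebra F (Fin n)) = 0 := by
  induction w with
  | nil => rfl
  | cons i w ih => rw [dqw_cons, ih, map_zero]

lemma dqw_add (w : List (Fin n)) (a b : FreeAlgebra F (Fin n)) : dqw w (a + b) = dqw w a + dqw w b := by
  induction w with
  | nil => rfl
  | cons i w ih => rw [dqw_cons, ih, map_add]; rfl

lemma dqw_smul (w : List (Fin n)) (c : F) (a : FreeAlgebra F (Fin n)) : dqw w (c • a) = c • dqw w a := by
  induction w with
  | nil => rfl
  | cons i w ih => rw [dqw_cons, ih, map_smul]; rfl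

private def QNil (g : FreeAlgebra F (Fin n)) : Prop := ∃ d : ℕ, ∀ w : List (Fin n), d ≤ w.length → dqw w g = 0

private lemma qnil_mul (a g : FreeAlgebra F (Fin n)) (hg : QNil g) : QNil (a * g) := by
  induction a using FreeAlgebra.induction generalizing g with
  | grade0 r =>
    obtain ⟨d, hd⟩ := hg
    refine ⟨d, fun w hw => ?_⟩
    rw [← Algebra.smul_def, dqw_smul, hd w hw, smul_zero]
  | grade1 x =>
    obtain ⟨d, hd⟩ := hg
    refine ⟨d + 1, fun w hw => ?_⟩
    rcases List.eq_nil_or_concat w with h | ⟨w', i, h⟩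
    · subst h
      simp at hw
    · subst h
      rw [List.concat_eq_append] at hw ⊢
      rw [dqw_append]
      have h1 : dqw [i] (FreeAlgebra.ι F x * g) = if i = x then g else 0 := dq_iota_mul i x g
      rw [h1]
      rw [List.length_append, List.length_singleton] at hw
      split_ifs
      · exact hd w' (by omega)
      · exact dqw_zero w'
  | mul a b ha hb =>
    rw [mul_assoc]
    exact ha _ (hb _ hg)
  | add a b ha hb =>
    rw [add_mul]
    obtain ⟨d1, h1⟩ := ha g hg
    obtain ⟨d2, h2⟩ := hb g hg
    refine ⟨max d1 d2, fun w hw => ?_⟩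
    rw [dqw_add, h1 w (le_trans (le_max_left _ _) hw), h2 w (le_trans (le_max_right _ _) hw), add_zero]

/-- Long iterated left quotients vanish. -/
theorem dqw_nil (a : FreeAlgebra F (Fin n)) : ∃ d : ℕ, ∀ w : List (Fin n), d ≤ w.length → dqw w a = 0 := by
  have h1 : QNil (1 : FreeAlgebra F (Fin n)) := by
    refine ⟨1, fun w hw => ?_⟩
    rcases List.eq_nil_or_concat w with h | ⟨w', i, h⟩
    · subst h
      simp at hw
    · subst h
      rw [List.concat_eq_append, dqw_append]
      have h1 : dqw [i] (1 : FreeAlgebra F (Fin n)) = 0 := dq_one i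
      rw [h1]
      exact dqw_zero w'
  have h2 := qnil_mul a 1 h1
  rwa [mul_one] at h2

/-- The polynomial of a formula of size `s` lies in a space of dimension at most `s + 1` that is closed under the left
quotients. -/
theorem formula_space (φ : NCFormula F n) : ∃ V : Submodule F (FreeAlgebra F (Fin n)), φ.poly ∈ V ∧
    (∀ i, ∀ g ∈ V, dq i g ∈ V) ∧ FiniteDimensional F V ∧ Module.finrank F V ≤ φ.size + 1 := by
  classical
  induction φ with
  | var i =>
    refine ⟨Submodule.span F (↑({FreeAlgebra.ι F i, 1} : Finset (FreeAlgebra F (Fin n)))), ?_, ?_, ?_, ?_⟩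
    · exact Submodule.subset_span (by simp [NCFormula.poly])
    · intro j g hg
      induction hg using Submodule.span_induction with
      | mem x hx =>
        simp only [Finset.coe_insert, Finset.coe_singleton, Set.mem_insert_iff, Set.mem_singleton_iff] at hx
        rcases hx with hx | hx
        · subst hx
          rw [dq_iota]
          split_ifs
          · exact Submodule.subset_span (by simp)
          · exact Submodule.zero_mem _
        · subst hx
          rw [dq_one]
          exact Submodule.zero_mem _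
      | zero => rw [map_zero]; exact Submodule.zero_mem _
      | add x y _ _ hx hy => rw [map_add]; exact Submodule.add_mem _ hx hy
      | smul c x _ hx => rw [map_smul]; exact Submodule.smul_mem _ c hx
    · infer_instance
    · refine (finrank_span_finset_le_card _).trans ?_
      exact Finset.card_le_two
  | const c =>
    refine ⟨Submodule.span F (↑({1} : Finset (FreeAlgebra F (Fin n)))), ?_, ?_, ?_, ?_⟩
    · have h1 : NCFormula.poly (NCFormula.const c : NCFormula F n) = c • (1 : FreeAlgebra F (Fin n)) := by
        rw [NCFormula.poly, Algebra.algebraMap_eq_smul_one]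
      rw [h1]
      exact Submodule.smul_mem _ c (Submodule.subset_span (by simp))
    · intro j g hg
      induction hg using Submodule.span_induction with
      | mem x hx =>
        simp only [Finset.coe_singleton, Set.mem_singleton_iff] at hx
        subst hx
        rw [dq_one]
        exact Submodule.zero_mem _
      | zero => rw [map_zero]; exact Submodule.zero_mem _
      | add x y _ _ hx hy => rw [map_add]; exact Submodule.add_mem _ hx hy
      | smul c x _ hx => rw [map_smul]; exact Submodule.smul_mem _ c hx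
    · infer_instance
    · refine (finrank_span_finset_le_card _).trans ?_
      simp [NCFormula.size]
  | add a b ha hb =>
    obtain ⟨V, hV1, hV2, hV3, hV4⟩ := ha
    obtain ⟨W, hW1, hW2, hW3, hW4⟩ := hb
    refine ⟨V ⊔ W, ?_, ?_, ?_, ?_⟩
    · exact Submodule.add_mem_sup hV1 hW1
    · intro i g hg
      obtain ⟨x, hx, y, hy, rfl⟩ := Submodule.mem_sup.mp hg
      rw [map_add]
      exact Submodule.add_mem_sup (hV2 i x hx) (hW2 i y hy)
    · infer_instance
    · refine (Submodule.finrank_add_le_finrank_add_finrank V W).trans ?_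
      rw [NCFormula.size]
      omega
  | mul a b ha hb =>
    obtain ⟨V, hV1, hV2, hV3, hV4⟩ := ha
    obtain ⟨W, hW1, hW2, hW3, hW4⟩ := hb
    refine ⟨V.map (LinearMap.mulRight F b.poly) ⊔ W, ?_, ?_, ?_, ?_⟩
    · refine Submodule.mem_sup_left ⟨a.poly, hV1, ?_⟩
      rw [LinearMap.mulRight_apply]
      rfl
    · intro i g hg
      obtain ⟨x, hx, y, hy, rfl⟩ := Submodule.mem_sup.mp hg
      obtain ⟨v, hv, rfl⟩ := hx
      rw [LinearMap.mulRight_apply, map_add, dq_mul, add_assoc]
      refine Submodule.add_mem_sup ⟨dq i v, hV2 i v hv, ?_⟩ (Submodule.add_mem _ (Submodule.smul_mem _ _ (hW2 i _ hW1)) (hW2 i y hy))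
      rw [LinearMap.mulRight_apply]
    · infer_instance
    · refine (Submodule.finrank_add_le_finrank_add_finrank _ W).trans ?_
      have h1 := Submodule.finrank_map_le (LinearMap.mulRight F b.poly) V
      rw [NCFormula.size]
      omega

end

end Vale.Agent.P314
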