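import Vale.Agent.P314.Order
import Vale.Agent.P314.Quot
import Vale.Agent.P314.Ops

/-! # P314: assembly of the hitting property -/

namespace Vale.Agent.P314

open Polynomial

noncomputable section

variable {F : Type*} [Field F] {n : ℕ}

/-- The span of the left quotients of `f`. -/
def orbV (f : FreeAlgebra F (Fin n)) : Submodule F (FreeAlgebra F (Fin n)) :=
  Submodule.span F (Set.range fun w : List (Fin n) => dqw w f)

lemma orbV_stable (f : FreeAlgebra F (Fin n)) (i : Fin n) (g : FreeAlgebra F (Fin n))
    (hg : g ∈ orbV f) : dq i g ∈ orbV f := by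
  have h : orbV f ≤ (orbV f).comap (dq i) := by
    refine Submodule.span_le.2 ?_
    rintro _ ⟨w, rfl⟩
    exact Submodule.subset_span ⟨i :: w, rfl⟩
  exact h hg

lemma orbV_le {f : FreeAlgebra F (Fin n)} {V : Submodule F (FreeAlgebra F (Fin n))}
    (hf : f ∈ V) (hV : ∀ i, ∀ g ∈ V, dq i g ∈ V) : orbV f ≤ V := by
  refine Submodule.span_le.2 ?_
  rintro _ ⟨w, rfl⟩
  show dqw w f ∈ V
  induction w with
  | nil => exact hf
  | cons i w ih => exact hV i _ ih

/-- The power series attached to an element of the free algebra. -/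
def Zs (F : Type*) [Field F] (n : ℕ) : FreeAlgebra F (Fin n) →ₗ[F] PowerSeries (PowerSeries F) where
  toFun g := (FreeAlgebra.lift F (TT (F := F) n)) g 1
  map_add' a b := by rw [map_add]; rfl
  map_smul' c a := by rw [map_smul]; rfl

lemma Zs_apply (g : FreeAlgebra F (Fin n)) :
    Zs F n g = (FreeAlgebra.lift F (TT (F := F) n)) g 1 := rfl

lemma Zs_decomp (g : FreeAlgebra F (Fin n)) :
    Zs F n g = eps g • (1 : PowerSeries (PowerSeries F)) + ∑ i, TT (F := F) n i (Zs F n (dq i g)) := by
  conv_lhs => rw [decomp g]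
  rw [map_add, map_sum]
  congr 1
  · rw [Zs_apply, AlgHom.commutes]
    rfl
  · refine Finset.sum_congr rfl fun i _ => ?_
    rw [Zs_apply, map_mul, FreeAlgebra.lift_ι_apply]
    rfl

lemma Zs_rel (hn : 0 < n) (g : FreeAlgebra F (Fin n)) :
    (1 - PowerSeries.X ^ n) * (Zs F n g
        - PowerSeries.rescale (PowerSeries.X : PowerSeries F) (Zs F n g))
      = ∑ i : Fin n, PowerSeries.X ^ ((i : ℕ) + 1) * Zs F n (dq i g) := by
  have h1 : ∀ c : F, PowerSeries.rescale (PowerSeries.X : PowerSeries F)
      (c • (1 : PowerSeries (PowerSeries F))) = c • (1 : PowerSeries (PowerSeries F)) := by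
    intro c
    ext m
    rw [PowerSeries.coeff_rescale]
    rw [PowerSeries.coeff_smul, PowerSeries.coeff_one]
    split_ifs with h
    · rw [h]; simp
    · simp
  rw [Zs_decomp g, map_add, h1, map_sum]
  have h2 : eps g • (1 : PowerSeries (PowerSeries F)) + ∑ i, TT (F := F) n i (Zs F n (dq i g))
      - (eps g • (1 : PowerSeries (PowerSeries F))
        + ∑ i, PowerSeries.rescale (PowerSeries.X : PowerSeries F) (TT (F := F) n i (Zs F n (dq i g))))
      = ∑ i, (TT (F := F) n i (Zs F n (dq i g))
        - PowerSeries.rescale (PowerSeries.X : PowerSeries F) (TT (F := F) n i (Zs F n (dq i g)))) := by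
    rw [Finset.sum_sub_distrib]; ring
  rw [h2, Finset.mul_sum]
  exact Finset.sum_congr rfl fun i _ => TT_eq n i _

lemma Zs_const (g : FreeAlgebra F (Fin n)) :
    PowerSeries.constantCoeff (Zs F n g) = PowerSeries.C (eps g) := by
  rw [Zs_decomp g, map_add, map_sum]
  have h1 : ∀ i, PowerSeries.constantCoeff (TT (F := F) n i (Zs F n (dq i g))) = 0 :=
    fun i => constantCoeff_TT n i _
  simp only [h1, Finset.sum_const_zero, add_zero]
  rw [← PowerSeries.coeff_zero_eq_constantCoeff_apply, PowerSeries.coeff_smul]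
  simp [PowerSeries.smul_eq_C_mul]

/-- An element all of whose left quotients have vanishing constant term is zero. -/
lemma eq_zero_of_eps (f : FreeAlgebra F (Fin n)) (h : ∀ w, eps (dqw w f) = 0) : f = 0 := by
  obtain ⟨d, hd⟩ := dqw_nil f
  have key : ∀ j : ℕ, ∀ w : List (Fin n), d ≤ w.length + j → dqw w f = 0 := by
    intro j
    induction j with
    | zero => intro w hw; exact hd w (by simpa using hw)
    | succ j ih =>
      intro w hw
      rw [decomp (dqw w f), h w, map_zero, zero_add]
      refine Finset.sum_eq_zero fun i _ => ?_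
      have : dq i (dqw w f) = 0 := ih (i :: w) (by rw [List.length_cons]; omega)
      rw [this, mul_zero]
  exact key d [] (by simp)

/-- The base field of the q-difference calculus: the fraction field of `F⟦q⟧`. -/
abbrev KF (F : Type*) [Field F] := FractionRing (PowerSeries F)

lemma map_rescale {R S : Type*} [CommRing R] [CommRing S] (g : R →+* S) (a : R)
    (h : PowerSeries R) : PowerSeries.map g (PowerSeries.rescale a h)
      = PowerSeries.rescale (g a) (PowerSeries.map g h) := by
  ext m
  rw [PowerSeries.coeff_map, PowerSeries.coeff_rescale, PowerSeries.coeff_rescale,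
    PowerSeries.coeff_map, map_mul, map_pow]

/-- The main hitting theorem, in terms of spaces of left quotients. -/
theorem hits_of_space (hn : 0 < n) {f : FreeAlgebra F (Fin n)} (hf : f ≠ 0)
    {V : Submodule F (FreeAlgebra F (Fin n))} (hfV : f ∈ V)
    (hV : ∀ i, ∀ g ∈ V, dq i g ∈ V) [FiniteDimensional F V] {A M : ℕ}
    (hA : n * ∑ k ∈ Finset.range (Module.finrank F V), k < A) (hM : A * A ≤ M) :
    FreeAlgebra.lift F (hitM F n A M) f ≠ 0 := by
  classical
  have hA0 : 0 < A := lt_of_le_of_lt (Nat.zero_le _) hA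
  have hM0 : 0 < M := lt_of_lt_of_le (Nat.mul_pos hA0 hA0) hM
  set W : Submodule F (FreeAlgebra F (Fin n)) := orbV f with hW
  have hWV : W ≤ V := orbV_le hfV hV
  haveI : FiniteDimensional F W := Submodule.finiteDimensional_of_le hWV
  have hWr : Module.finrank F W ≤ Module.finrank F V := Submodule.finrank_mono hWV
  set r := Module.finrank F W with hr
  let e : Module.Basis (Fin r) F W := Module.finBasis F W
  have hfW : f ∈ W := Submodule.subset_span ⟨[], rfl⟩
  let dW : Fin n → W →ₗ[F] W := fun i => (dq i).restrict (orbV_stable f i)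
  let N0 : Fin n → Matrix (Fin r) (Fin r) F := fun i => LinearMap.toMatrix e e (dW i)
  let u0 : Fin r → F := fun a => e.repr ⟨f, hfW⟩ a
  -- base change
  let R := PowerSeries F
  let κ : F →+* KF F := (algebraMap R (KF F)).comp (PowerSeries.C)
  let N : Fin n → Matrix (Fin r) (Fin r) (KF F) := fun i => (N0 i).map κ
  let u : Fin r → KF F := fun a => κ (u0 a)
  let q : KF F := algebraMap R (KF F) PowerSeries.X
  have hinjR : Function.Injective (algebraMap R (KF F)) := IsFractionRing.injective R (KF F)
  have hq0 : q ≠ 0 := by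
    intro h
    exact PowerSeries.X_ne_zero (hinjR (by rw [map_zero]; exact h))
  have hq : ∀ k : ℕ, 0 < k → q ^ k ≠ 1 := by
    intro k hk h
    have h1 : (PowerSeries.X : R) ^ k = 1 := by
      apply hinjR
      rw [map_pow, map_one]; exact h
    have h2 := congrArg PowerSeries.constantCoeff h1
    rw [map_pow, PowerSeries.constantCoeff_X, map_one, zero_pow hk.ne'] at h2
    exact zero_ne_one h2
  have hdwmem : ∀ w, dqw w f ∈ W := fun w => Submodule.subset_span ⟨w, rfl⟩
  have hNw0 : ∀ w, Nw N0 u0 w = fun a => e.repr ⟨dqw w f, hdwmem w⟩ a := by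
    intro w
    induction w with
    | nil => rfl
    | cons i w ih =>
      rw [Nw, ih]
      have h1 := LinearMap.toMatrix_mulVec_repr e e (dW i) ⟨dqw w f, hdwmem w⟩
      exact h1
  have hNw : ∀ w, Nw N u w = fun a => κ (Nw N0 u0 w a) := by
    intro w
    induction w with
    | nil => rfl
    | cons i w ih =>
      funext a
      rw [Nw, ih, Nw]
      simp only [Matrix.mulVec, dotProduct, map_sum, map_mul, N, Matrix.map_apply]
  have hnil : ∃ d, ∀ w : List (Fin n), d ≤ w.length → Nw N u w = 0 := by
    obtain ⟨d, hd⟩ := dqw_nil f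
    refine ⟨d, fun w hw => ?_⟩
    rw [hNw, hNw0]
    funext a
    have : (⟨dqw w f, hdwmem w⟩ : W) = 0 := Subtype.ext (hd w hw)
    rw [this]
    simp
  have hcyc : ∀ l : Fin r → RatFunc (KF F), (∀ w, val N u l w = 0) → l = 0 := by
    intro l hl
    have h1 : ∀ g (hg : g ∈ W), ∑ a, l a * RatFunc.C (κ (e.repr ⟨g, hg⟩ a)) = 0 := by
      intro g hg
      refine Submodule.span_induction (p := fun g hg =>
        ∑ a, l a * RatFunc.C (κ (e.repr ⟨g, hg⟩ a)) = 0) ?_ ?_ ?_ ?_ hg
      · rintro _ ⟨w, rfl⟩
        have h2 := hl w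
        rw [val, hNw, hNw0] at h2
        exact h2
      · have h3 : (⟨0, Submodule.zero_mem _⟩ : W) = 0 := rfl
        rw [h3]; simp
      · intro x y hx hy h3 h4
        have h5 : (⟨x + y, Submodule.add_mem _ hx hy⟩ : W) = ⟨x, hx⟩ + ⟨y, hy⟩ := rfl
        rw [h5]
        simp only [map_add, Finsupp.add_apply, mul_add, Finset.sum_add_distrib, h3, h4, add_zero]
      · intro c x hx h3
        have h5 : (⟨c • x, Submodule.smul_mem _ c hx⟩ : W) = c • ⟨x, hx⟩ := rfl
        rw [h5]
        simp only [map_smul, Finsupp.smul_apply, smul_eq_mul, map_mul]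
        have h6 : ∀ a, l a * (RatFunc.C (κ c) * RatFunc.C (κ (e.repr ⟨x, hx⟩ a)))
            = RatFunc.C (κ c) * (l a * RatFunc.C (κ (e.repr ⟨x, hx⟩ a))) := fun a => by ring
        simp only [h6, ← Finset.mul_sum, h3, mul_zero]
    funext b
    have h2 := h1 (e b) (e b).2
    have h3 : (⟨(e b : FreeAlgebra F (Fin n)), (e b).2⟩ : W) = e b := rfl
    rw [h3] at h2
    simp only [Module.Basis.repr_self] at h2
    rw [Finset.sum_eq_single b] at h2
    · simpa using h2
    · intro a _ hab
      rw [Finsupp.single_eq_of_ne hab]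
      simp
    · intro h; exact absurd (Finset.mem_univ b) h
  -- the solution
  let μ : PowerSeries R →+* PowerSeries (KF F) := PowerSeries.map (algebraMap R (KF F))
  let Y : Fin r → PowerSeries (KF F) := fun a => μ (Zs F n (e a : FreeAlgebra F (Fin n)))
  have hμr : ∀ h : PowerSeries R, μ (PowerSeries.rescale (PowerSeries.X : R) h)
      = PowerSeries.rescale q (μ h) := by
    intro h
    exact map_rescale (algebraMap R (KF F)) PowerSeries.X h
  have hμC : ∀ (c : F) (h : PowerSeries R), μ (c • h) = cps (KF F) (C (κ c)) * μ h := by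
    intro c h
    ext m
    simp only [μ, PowerSeries.coeff_map, cps, coeToPowerSeries.ringHom_apply, coe_C,
      PowerSeries.coeff_C_mul, PowerSeries.coeff_smul, κ, RingHom.comp_apply]
    rw [← map_mul, PowerSeries.smul_eq_C_mul]
  have hdqe : ∀ i a, dq i (e a : FreeAlgebra F (Fin n))
      = ∑ b, N0 i b a • (e b : FreeAlgebra F (Fin n)) := by
    intro i a
    have h1 : (dW i (e a) : W) = ∑ b, N0 i b a • e b := by
      conv_lhs => rw [← e.sum_repr (dW i (e a))]
      refine Finset.sum_congr rfl fun b _ => ?_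
      show (e.repr ((dW i) (e a))) b • e b = LinearMap.toMatrix e e (dW i) b a • e b
      rw [LinearMap.toMatrix_apply]
    have h2 := congrArg (fun x : W => (x : FreeAlgebra F (Fin n))) h1
    simp only [Submodule.coe_sum, Submodule.coe_smul] at h2
    exact h2
  have hY : ∀ a, cps (KF F) (pden (KF F) n) * (Y a - PowerSeries.rescale q (Y a))
      = ∑ i : Fin n, cps (KF F) (X ^ ((i : ℕ) + 1)) * ∑ b, cps (KF F) (C (N i b a)) * Y b := by
    intro a
    have h1 := congrArg μ (Zs_rel hn (e a : FreeAlgebra F (Fin n)))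
    rw [map_mul, map_sub μ (Zs F n (e a : FreeAlgebra F (Fin n))), hμr, map_sum] at h1
    have h2 : μ (1 - PowerSeries.X ^ n) = cps (KF F) (pden (KF F) n) := by
      simp [μ, pden, cps]
    rw [h2] at h1
    rw [h1]
    refine Finset.sum_congr rfl fun i _ => ?_
    rw [map_mul, hdqe i a, map_sum, map_sum]
    congr 1
    · simp [μ, cps]
    · refine Finset.sum_congr rfl fun b _ => ?_
      rw [map_smul, hμC]
      rfl
  have hnz : ∃ a, PowerSeries.constantCoeff (Y a) ≠ 0 := by
    by_contra hcon
    push Not at hcon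
    have h1 : ∀ a, eps (e a : FreeAlgebra F (Fin n)) = 0 := by
      intro a
      have h2 := hcon a
      have h3 : PowerSeries.constantCoeff (Y a)
          = algebraMap R (KF F) (PowerSeries.constantCoeff (Zs F n (e a : FreeAlgebra F (Fin n)))) := by
        rw [← PowerSeries.coeff_zero_eq_constantCoeff_apply, PowerSeries.coeff_map,
          PowerSeries.coeff_zero_eq_constantCoeff_apply]
      rw [h3, Zs_const] at h2
      have h4 : (PowerSeries.C (eps (e a : FreeAlgebra F (Fin n))) : R) = 0 := by
        apply hinjR; rw [h2, map_zero]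
      have h5 := congrArg PowerSeries.constantCoeff h4
      simpa using h5
    apply hf
    apply eq_zero_of_eps
    intro w
    have h2 := e.sum_repr ⟨dqw w f, hdwmem w⟩
    have h3 := congrArg (fun x : W => eps (x : FreeAlgebra F (Fin n))) h2
    simp only [Submodule.coe_sum, Submodule.coe_smul, map_sum, map_smul, h1, smul_zero,
      Finset.sum_const_zero] at h3
    exact h3.symm
  have hD : n * ∑ k ∈ Finset.range r, k < A := by
    refine lt_of_le_of_lt (Nat.mul_le_mul_left n ?_) hA
    exact Finset.sum_le_sum_of_subset (Finset.range_mono hWr)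
  obtain ⟨m, hmA, hm⟩ := order_bound hq0 hq hn N u hnil hcyc Y hY hnz hD
  have hsum : (∑ a, cps (KF F) (C (u a)) * Y a) = μ (Zs F n f) := by
    have h1 : f = ∑ a, u0 a • (e a : FreeAlgebra F (Fin n)) := by
      have h2 := congrArg (fun x : W => (x : FreeAlgebra F (Fin n))) (e.sum_repr ⟨f, hfW⟩)
      simp only [Submodule.coe_sum, Submodule.coe_smul] at h2
      exact h2.symm
    conv_rhs => rw [h1]
    rw [map_sum, map_sum]
    refine Finset.sum_congr rfl fun a _ => ?_
    rw [map_smul, hμC]
  rw [hsum] at hm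
  have hm' : PowerSeries.coeff m (Zs F n f) ≠ 0 := by
    intro h
    apply hm
    rw [PowerSeries.coeff_map, h, map_zero]
  obtain ⟨a, ha, hma⟩ := lam_order n f m hm'
  have haM : a < M := by
    have : m * m < A * A := Nat.mul_self_lt_mul_self hmA
    omega
  intro hzero
  have hx : m * M + a < A * M := by
    calc m * M + a < m * M + M := by omega
      _ = (m + 1) * M := by ring
      _ ≤ A * M := Nat.mul_le_mul_right M hmA
  have h1 := hitM_apply n A M (Nat.mul_pos hA0 hM0) f ⟨m * M + a, hx⟩
  rw [hzero] at h1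
  have h2 : (m * M + a) / M = m := by
    rw [mul_comm, Nat.mul_add_div hM0, Nat.div_eq_of_lt haM, add_zero]
  have h3 : (m * M + a) % M = a := by
    rw [mul_comm, Nat.mul_add_mod, Nat.mod_eq_of_lt haM]
  simp only [h2, h3] at h1
  exact hma h1.symm

/-- The space generated by the left quotients of a formula of size `s`, and the numerical
estimates: the explicit tuple hits. -/
theorem hits_formula (F : Type*) [Field F] (n s : ℕ) {f : FreeAlgebra F (Fin n)}
    (hfs : f ∈ _root_.P314.FormulaClass F n s) (hne : f ≠ 0) :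
    FreeAlgebra.lift F (hitM F n ((n + s + 1) ^ 3) ((n + s + 1) ^ 6)) f ≠ 0 := by
  obtain ⟨φ, hs, rfl⟩ := hfs
  rcases Nat.eq_zero_or_pos n with hn | hn
  · subst hn
    have h1 := decomp φ.poly
    rw [Finset.univ_eq_empty, Finset.sum_empty, add_zero] at h1
    rw [h1, AlgHom.commutes]
    have hc : eps φ.poly ≠ 0 := by
      intro h
      rw [h, map_zero] at h1
      exact hne h1
    have hpos : 0 < (0 + s + 1) ^ 3 * (0 + s + 1) ^ 6 := by positivity
    intro h
    have h2 := congrFun (congrFun h ⟨0, hpos⟩) ⟨0, hpos⟩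
    rw [Matrix.algebraMap_matrix_apply] at h2
    simp only [if_true, Matrix.zero_apply] at h2
    exact hc h2
  · obtain ⟨V, hfV, hV, hfin, hrank⟩ := formula_space φ
    haveI := hfin
    refine hits_of_space hn hne hfV hV ?_ ?_
    · have h1 : ∑ k ∈ Finset.range (Module.finrank F V), k ≤ (s + 1) * (s + 1) := by
        have h2 : ∑ k ∈ Finset.range (Module.finrank F V), k
            ≤ ∑ k ∈ Finset.range (Module.finrank F V), (s + 1) := by
          refine Finset.sum_le_sum fun k hk => ?_
          have := Finset.mem_range.mp hk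
          omega
        refine h2.trans ?_
        rw [Finset.sum_const, Finset.card_range, smul_eq_mul]
        exact Nat.mul_le_mul_right _ (by omega)
      have h2 : n * ∑ k ∈ Finset.range (Module.finrank F V), k ≤ n * ((s + 1) * (s + 1)) :=
        Nat.mul_le_mul_left n h1
      refine lt_of_le_of_lt h2 ?_
      have h3 : (n + s + 1) ^ 3 = (n + s + 1) * ((n + s + 1) * (n + s + 1)) := by ring
      rw [h3]
      have h4 : (s + 1) * (s + 1) ≤ (n + s + 1) * (n + s + 1) :=
        Nat.mul_le_mul (by omega) (by omega)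
      calc n * ((s + 1) * (s + 1)) ≤ n * ((n + s + 1) * (n + s + 1)) := Nat.mul_le_mul_left n h4
        _ < (n + s + 1) * ((n + s + 1) * (n + s + 1)) :=
          Nat.mul_lt_mul_of_pos_right (by omega) (by positivity)
    · rw [← pow_add]

end

end Vale.Agent.P314
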