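import Mathlib

/-!
P314: the non-integrability lemma for `φ_i = t^i/(1-t^i)` and the `q`-difference operator
`σ - 1`, `σ : t ↦ λ t`, in coefficient form.
-/

namespace P314

open Finset Polynomial

/-- the coefficient of `t^m` in `∑ c_i t^i/(1-t^i)`. -/
def divSum {K : Type*} [AddCommMonoid K] (n : ℕ) (c : ℕ → K) (m : ℕ) : K :=
  ∑ i ∈ (Finset.Icc 1 n).filter (fun i => i ∣ m), c i

theorem divSum_add_mul {K : Type*} [AddCommMonoid K] (n : ℕ) (c : ℕ → K) (k m : ℕ) :
    divSum n c (n.factorial * k + m) = divSum n c m := by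
  unfold divSum
  congr 1
  apply Finset.filter_congr
  intro i hi
  rw [Finset.mem_Icc] at hi
  have h1 : i ∣ n.factorial * k :=
    Dvd.dvd.mul_right (Nat.dvd_factorial (by omega) hi.2) k
  exact (Nat.dvd_add_right h1)

/-- Möbius-free inversion: if all divisor sums vanish, all `c_i`, `1 ≤ i ≤ n`, vanish. -/
theorem coeff_zero_of_divSum {K : Type*} [AddCommMonoid K] (n : ℕ) (c : ℕ → K)
    (h : ∀ m, 1 ≤ m → divSum n c m = 0) : ∀ i, 1 ≤ i → i ≤ n → c i = 0 := by
  intro i
  induction i using Nat.strong_induction_on with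
  | _ i ih =>
    intro h1 h2
    have h3 := h i h1
    unfold divSum at h3
    rw [Finset.sum_eq_single i] at h3
    · exact h3
    · intro j hj hji
      rw [Finset.mem_filter, Finset.mem_Icc] at hj
      have hle : j ≤ i := Nat.le_of_dvd (by omega) hj.2
      exact ih j (by omega) hj.1.1 (by omega)
    · intro hni
      exfalso
      apply hni
      rw [Finset.mem_filter, Finset.mem_Icc]
      exact ⟨⟨h1, h2⟩, dvd_refl i⟩

theorem pow_injective_of_not_root {K : Type*} [Field K] (lam : K) (h0 : lam ≠ 0)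
    (hlam : ∀ m, 1 ≤ m → lam ^ m ≠ 1) : Function.Injective (fun k : ℕ => lam ^ k) := by
  have key : ∀ a b : ℕ, a < b → lam ^ a ≠ lam ^ b := by
    intro a b hab h
    have h1 : lam ^ b = lam ^ a * lam ^ (b - a) := by
      rw [← pow_add]; congr 1; omega
    rw [h1] at h
    have h2 : lam ^ (b - a) = 1 := by
      have h3 : lam ^ a ≠ 0 := pow_ne_zero _ h0
      have h4 : lam ^ a * 1 = lam ^ a * lam ^ (b - a) := by rw [mul_one]; exact h
      exact (mul_left_cancel₀ h3 h4).symm
    exact hlam (b - a) (by omega) h2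
  intro a b hab
  rcases lt_trichotomy a b with h | h | h
  · exact absurd hab (key a b h)
  · exact h
  · exact absurd hab.symm (key b a h)

/-- **Non-integrability.**  If `g_m (λ^m - 1) = ∑_{i ∣ m, i ≤ n} c_i` for all `m ≥ 1` and the
sequence `g` satisfies eventually a nontrivial linear recurrence, then all `c_i` vanish. -/
theorem nonint {K : Type*} [Field K] (lam : K) (h0 : lam ≠ 0)
    (hlam : ∀ m, 1 ≤ m → lam ^ m ≠ 1) (n : ℕ) (c : ℕ → K) (g : ℕ → K)
    (hg : ∀ m, 1 ≤ m → g m * (lam ^ m - 1) = divSum n c m)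
    (b : K[X]) (hb : b ≠ 0) (N : ℕ)
    (hrec : ∀ m, N ≤ m → ∑ j ∈ Finset.range (b.natDegree + 1), b.coeff j * g (m - j) = 0) :
    ∀ i, 1 ≤ i → i ≤ n → c i = 0 := by
  apply coeff_zero_of_divSum n c
  intro m hm
  set d := b.natDegree with hd
  set s := m + d with hs
  -- the auxiliary polynomial
  let Q : K[X] := ∑ j ∈ Finset.range (d + 1),
    C (b.coeff j * divSum n c (s - j)) *
      ∏ j' ∈ (Finset.range (d + 1)).erase j, (C (lam ^ (s - j')) * X - 1)
  have hLpos : 0 < n.factorial := Nat.factorial_pos n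
  have hQ0 : ∀ k, N ≤ k → Q.eval (lam ^ (n.factorial * k)) = 0 := by
    intro k hk
    set z := lam ^ (n.factorial * k) with hz
    have hne : ∀ j ∈ Finset.range (d + 1), lam ^ (s - j) * z - 1 ≠ 0 := by
      intro j hj
      rw [Finset.mem_range] at hj
      rw [hz, ← pow_add]
      exact sub_ne_zero.mpr (hlam _ (by omega))
    have hgj : ∀ j ∈ Finset.range (d + 1),
        divSum n c (s - j) = g (n.factorial * k + s - j) * (lam ^ (s - j) * z - 1) := by
      intro j hj
      rw [Finset.mem_range] at hj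
      have h1 : n.factorial * k + s - j = n.factorial * k + (s - j) := by omega
      rw [h1, hz, ← pow_add, ← divSum_add_mul n c k (s - j), ← hg _ (by omega)]
      congr 3
      omega
    have h2 : Q.eval z = (∏ j' ∈ Finset.range (d + 1), (lam ^ (s - j') * z - 1)) *
        ∑ j ∈ Finset.range (d + 1), b.coeff j * g (n.factorial * k + s - j) := by
      simp only [Q, eval_finsetSum, eval_mul, eval_C, eval_prod, eval_sub, eval_X, eval_one]
      rw [Finset.mul_sum]
      apply Finset.sum_congr rfl
      intro j hj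
      rw [hgj j hj, ← Finset.mul_prod_erase _ _ hj]
      ring
    rw [h2, hrec (n.factorial * k + s) (by nlinarith [Nat.zero_le s]), mul_zero]
  have hQ : Q = 0 := by
    apply Polynomial.eq_zero_of_infinite_isRoot
    have hinj : Function.Injective (fun k : ℕ => lam ^ (n.factorial * (k + N))) := by
      intro a b' hab
      have := pow_injective_of_not_root lam h0 hlam hab
      have h5 : a + N = b' + N := Nat.eq_of_mul_eq_mul_left hLpos this
      omega
    refine (Set.infinite_range_of_injective hinj).mono ?_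
    rintro _ ⟨k, rfl⟩
    exact hQ0 (k + N) (by omega)
  -- evaluate at the pole of the leading term
  have hev : Q.eval ((lam ^ (s - d))⁻¹) = 0 := by rw [hQ, eval_zero]
  have h6 : Q.eval ((lam ^ (s - d))⁻¹) = b.coeff d * divSum n c (s - d) *
      ∏ j' ∈ (Finset.range (d + 1)).erase d, (lam ^ (s - j') * (lam ^ (s - d))⁻¹ - 1) := by
    simp only [Q, eval_finsetSum, eval_mul, eval_C, eval_prod, eval_sub, eval_X, eval_one]
    rw [Finset.sum_eq_single d]
    · intro j hj hjd
      have h7 : d ∈ (Finset.range (d + 1)).erase j := by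
        rw [Finset.mem_erase, Finset.mem_range]
        exact ⟨fun h => hjd h.symm, by omega⟩
      rw [Finset.prod_eq_zero h7, mul_zero]
      rw [mul_inv_cancel₀ (pow_ne_zero _ h0), sub_self]
    · intro h
      exact absurd (Finset.mem_range.mpr (by omega)) h
  rw [h6] at hev
  have h8 : ∏ j' ∈ (Finset.range (d + 1)).erase d,
      (lam ^ (s - j') * (lam ^ (s - d))⁻¹ - 1) ≠ 0 := by
    apply Finset.prod_ne_zero_iff.mpr
    intro j hj
    rw [Finset.mem_erase, Finset.mem_range] at hj
    have h9 : lam ^ (s - j) = lam ^ (d - j) * lam ^ (s - d) := by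
      rw [← pow_add]; congr 1; omega
    rw [h9, mul_assoc, mul_inv_cancel₀ (pow_ne_zero _ h0), mul_one]
    exact sub_ne_zero.mpr (hlam _ (by omega))
  have h10 : b.coeff d ≠ 0 := by
    rw [hd, Polynomial.coeff_natDegree]
    exact Polynomial.leadingCoeff_ne_zero.mpr hb
  have h11 : s - d = m := by omega
  rcases mul_eq_zero.mp hev with h | h
  · rcases mul_eq_zero.mp h with h' | h'
    · exact absurd h' h10
    · rwa [h11] at h'
  · exact absurd h h8

end P314
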