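import Vale.Agent.P314.Zero

/-! # P314: the order bound -/

namespace Vale.Agent.P314

open Polynomial

noncomputable section

variable {K : Type*} [Field K] {n r : ℕ}

/-- The coercion of polynomials into power series as a ring homomorphism. -/
abbrev cps (K : Type*) [Field K] : K[X] →+* PowerSeries K := Polynomial.coeToPowerSeries.ringHom

lemma cps_dil (q : K) (p : K[X]) : cps K (dil q p) = PowerSeries.rescale q (cps K p) := by
  ext m
  rw [PowerSeries.coeff_rescale]
  simp only [cps, coeToPowerSeries.ringHom_apply, coeff_coe]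
  rw [dil_coeff, mul_comm]

/-- The power series attached to the `k`-th Krylov vector. -/
def ev (q : K) (N : Fin n → Matrix (Fin r) (Fin r) K) (u : Fin r → K)
    (Y : Fin r → PowerSeries K) (k : ℕ) : PowerSeries K :=
  ∑ a, cps K (Uv q N u k a) * Y a

lemma ev_succ (q : K) (N : Fin n → Matrix (Fin r) (Fin r) K) (u : Fin r → K)
    (Y : Fin r → PowerSeries K)
    (hY : ∀ a, cps K (pden K n) * (Y a - PowerSeries.rescale q (Y a))
      = ∑ i : Fin n, cps K (X ^ ((i : ℕ) + 1)) * ∑ b, cps K (C (N i b a)) * Y b) (k : ℕ) :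
    ev q N u Y (k + 1) = cps K (pden K n) * PowerSeries.rescale q (ev q N u Y k) := by
  have hY' : ∀ a, cps K (pden K n) * PowerSeries.rescale q (Y a)
      = cps K (pden K n) * Y a
        - ∑ i : Fin n, cps K (X ^ ((i : ℕ) + 1)) * ∑ b, cps K (C (N i b a)) * Y b := by
    intro a
    rw [← hY a]
    ring
  have h1 : cps K (pden K n) * PowerSeries.rescale q (ev q N u Y k)
      = ∑ a, PowerSeries.rescale q (cps K (Uv q N u k a)) *
        (cps K (pden K n) * PowerSeries.rescale q (Y a)) := by
    rw [ev, map_sum, Finset.mul_sum]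
    refine Finset.sum_congr rfl fun a _ => ?_
    rw [map_mul]
    ring
  rw [h1]
  simp only [hY', mul_sub, Finset.sum_sub_distrib]
  rw [ev]
  simp only [Uv, map_sub, map_mul, map_sum, sub_mul, Finset.sum_sub_distrib, cps_dil]
  congr 1
  · refine Finset.sum_congr rfl fun a _ => ?_
    ring
  · simp only [Finset.mul_sum, Finset.sum_mul]
    rw [Finset.sum_comm]
    conv_rhs => rw [Finset.sum_comm]
    refine Finset.sum_congr rfl fun i _ => ?_
    rw [Finset.sum_comm]
    refine Finset.sum_congr rfl fun a _ => Finset.sum_congr rfl fun b _ => ?_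
    ring

lemma ev_dvd (q : K) (N : Fin n → Matrix (Fin r) (Fin r) K) (u : Fin r → K)
    (Y : Fin r → PowerSeries K)
    (hY : ∀ a, cps K (pden K n) * (Y a - PowerSeries.rescale q (Y a))
      = ∑ i : Fin n, cps K (X ^ ((i : ℕ) + 1)) * ∑ b, cps K (C (N i b a)) * Y b)
    {D : ℕ} (h0 : PowerSeries.X ^ D ∣ ev q N u Y 0) (k : ℕ) :
    PowerSeries.X ^ D ∣ ev q N u Y k := by
  induction k with
  | zero => exact h0
  | succ k ih =>
    rw [ev_succ q N u Y hY]
    apply Dvd.dvd.mul_left
    rw [PowerSeries.X_pow_dvd_iff] at ih ⊢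
    intro m hm
    rw [PowerSeries.coeff_rescale, ih m hm, mul_zero]

lemma det_natDegree (q : K) (N : Fin n → Matrix (Fin r) (Fin r) K) (u : Fin r → K) :
    (Matrix.of fun (k : Fin r) a => Uv q N u k a).det.natDegree
      ≤ n * ∑ k ∈ Finset.range r, k := by
  rw [Matrix.det_apply']
  refine natDegree_sum_le_of_forall_le _ _ fun s _ => ?_
  refine natDegree_mul_le.trans ?_
  have h1 : (((Equiv.Perm.sign s : ℤ) : K[X])).natDegree = 0 := natDegree_intCast _
  rw [h1, zero_add]
  refine (natDegree_prod_le _ _).trans ?_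
  have h2 : ∀ i ∈ (Finset.univ : Finset (Fin r)),
      ((Matrix.of fun (k : Fin r) a => Uv q N u k a) (s i) i).natDegree ≤ n * ((s i : Fin r) : ℕ) := by
    intro i _
    exact Uv_natDegree q N u _ i
  refine (Finset.sum_le_sum h2).trans ?_
  rw [← Finset.mul_sum, Equiv.sum_comp s (fun i : Fin r => (i : ℕ)),
    Fin.sum_univ_eq_sum_range (fun k => k) r]

/-- The zero estimate: a component of a solution of a unipotent system of size `r` has order at
most `n r (r-1) / 2` at the origin. -/
theorem order_bound {q : K} (hq0 : q ≠ 0) (hq : ∀ k : ℕ, 0 < k → q ^ k ≠ 1) (hn : 0 < n)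
    (N : Fin n → Matrix (Fin r) (Fin r) K) (u : Fin r → K)
    (hnil : ∃ d, ∀ w : List (Fin n), d ≤ w.length → Nw N u w = 0)
    (hcyc : ∀ l : Fin r → RatFunc K, (∀ w, val N u l w = 0) → l = 0)
    (Y : Fin r → PowerSeries K)
    (hY : ∀ a, cps K (pden K n) * (Y a - PowerSeries.rescale q (Y a))
      = ∑ i : Fin n, cps K (X ^ ((i : ℕ) + 1)) * ∑ b, cps K (C (N i b a)) * Y b)
    (hnz : ∃ a, PowerSeries.constantCoeff (Y a) ≠ 0)
    {D : ℕ} (hD : n * ∑ k ∈ Finset.range r, k < D) :
    ∃ m < D, PowerSeries.coeff m (∑ a, cps K (C (u a)) * Y a) ≠ 0 := by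
  by_contra hcon
  push Not at hcon
  have h0 : PowerSeries.X ^ D ∣ ev q N u Y 0 := by
    rw [PowerSeries.X_pow_dvd_iff]
    intro m hm
    simpa only [ev, Uv] using hcon m hm
  have hall := ev_dvd q N u Y hY h0
  set M : Matrix (Fin r) (Fin r) K[X] := Matrix.of fun (k : Fin r) a => Uv q N u k a with hM
  have hdet : M.det ≠ 0 := det_ne_zero hq0 hq hn N u hnil hcyc
  set M' : Matrix (Fin r) (Fin r) (PowerSeries K) := M.map (cps K) with hM'
  have hdet' : M'.det = cps K M.det := by
    rw [hM', RingHom.map_det]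
    rfl
  have hev : ∀ k : Fin r, M'.mulVec Y k = ev q N u Y k := by
    intro k
    simp only [Matrix.mulVec, dotProduct, hM', hM, Matrix.map_apply, Matrix.of_apply, ev]
  obtain ⟨a, ha⟩ := hnz
  have hadj : cps K M.det * Y a = ∑ k, M'.adjugate a k * ev q N u Y k := by
    have h1 : M'.adjugate.mulVec (M'.mulVec Y) = M'.det • Y := by
      rw [Matrix.mulVec_mulVec, Matrix.adjugate_mul, Matrix.smul_mulVec, Matrix.one_mulVec]
    have h2 := congrFun h1 a
    rw [Pi.smul_apply, smul_eq_mul, hdet'] at h2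
    rw [← h2]
    simp only [Matrix.mulVec, dotProduct]
    refine Finset.sum_congr rfl fun k _ => ?_
    rw [← hev k]
    simp only [Matrix.mulVec, dotProduct]
  have hdvd : PowerSeries.X ^ D ∣ cps K M.det * Y a := by
    rw [hadj]
    exact Finset.dvd_sum fun k _ => Dvd.dvd.mul_left (hall k) _
  have hunit : IsUnit (Y a) := by
    rw [PowerSeries.isUnit_iff_constantCoeff]
    exact isUnit_iff_ne_zero.mpr ha
  have hdvd2 : PowerSeries.X ^ D ∣ cps K M.det := (hunit.dvd_mul_right).mp hdvd
  apply hdet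
  ext m
  rw [coeff_zero]
  rcases Nat.lt_or_ge m D with hm | hm
  · rw [PowerSeries.X_pow_dvd_iff] at hdvd2
    have := hdvd2 m hm
    simpa [cps] using this
  · apply coeff_eq_zero_of_natDegree_lt
    have := det_natDegree q N u
    rw [← hM] at this
    omega

end

end Vale.Agent.P314
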