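import Vale.Agent.P314.Dil

/-! # P314: the zero estimate for unipotent q-difference systems -/

namespace Vale.Agent.P314

open Polynomial

noncomputable section

variable {K : Type*} [Field K]

/-- The coefficient functions `X^(i+1)/(1-X^n)`. -/
def phi (K : Type*) [Field K] (n : ℕ) (i : Fin n) : RatFunc K :=
  algebraMap K[X] (RatFunc K) (X ^ ((i : ℕ) + 1)) / algebraMap K[X] (RatFunc K) (pden K n)

lemma sig_C (q : K) (hq : q ≠ 0) (a : K) : sig q hq (RatFunc.C a) = RatFunc.C a := by
  rw [← RatFunc.algebraMap_C, sig_algebraMap, dil_C]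

lemma algMap_ne_zero {p : K[X]} (hp : p ≠ 0) : algebraMap K[X] (RatFunc K) p ≠ 0 := by
  intro h
  apply hp
  apply IsFractionRing.injective K[X] (RatFunc K)
  rw [h, map_zero]

/-- Independence of the `phi i` modulo `sigma - 1`. -/
lemma indep {q : K} (hq0 : q ≠ 0) (hq : ∀ k : ℕ, 0 < k → q ^ k ≠ 1)
    {n : ℕ} (hn : 0 < n) (g : RatFunc K) (c : Fin n → K)
    (h : sig q hq0 g = g - ∑ i, phi K n i * RatFunc.C (c i)) :
    (∀ i, c i = 0) ∧ ∃ a : K, g = RatFunc.C a := by
  set al := algebraMap K[X] (RatFunc K) with hal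
  have halinj : Function.Injective al := IsFractionRing.injective K[X] (RatFunc K)
  set A := g.num with hA
  set B := g.denom with hB
  have hB0 : B ≠ 0 := g.denom_ne_zero
  have hAB : IsCoprime A B := g.isCoprime_num_denom
  have hg : al A / al B = g := g.num_div_denom
  set S : K[X] := ∑ i : Fin n, C (c i) * X ^ ((i : ℕ) + 1) with hS
  have hP0 : pden K n ≠ 0 := pden_ne_zero hn
  have haB : al B ≠ 0 := algMap_ne_zero hB0
  have hdB0 : dil q B ≠ 0 := by
    intro h0
    apply hB0
    have := congrArg (dil q⁻¹) h0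
    rwa [dil_inv_dil hq0, map_zero] at this
  have hadB : al (dil q B) ≠ 0 := algMap_ne_zero hdB0
  have haP : al (pden K n) ≠ 0 := algMap_ne_zero hP0
  have hsum : ∑ i, phi K n i * RatFunc.C (c i) = al S / al (pden K n) := by
    rw [hS, map_sum, Finset.sum_div]
    refine Finset.sum_congr rfl fun i _ => ?_
    rw [phi, map_mul, hal, RatFunc.algebraMap_C]
    ring
  have hsg : sig q hq0 g = al (dil q A) / al (dil q B) := by
    conv_lhs => rw [← hg]
    rw [map_div₀, sig_algebraMap, sig_algebraMap]
  rw [hsg, hsum] at h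
  conv at h => rhs; rw [← hg]
  have h2 : al (pden K n * dil q A * B)
      = al (pden K n * A * dil q B - S * B * dil q B) := by
    simp only [map_mul, map_sub]
    field_simp at h
    linear_combination h
  have h3 := halinj h2
  have hS0 : S.coeff 0 = 0 := by
    rw [hS, finsetSum_coeff]
    refine Finset.sum_eq_zero fun i _ => ?_
    rw [coeff_C_mul, coeff_X_pow, if_neg (Nat.succ_ne_zero _).symm, mul_zero]
  have hSn : S.natDegree ≤ n := by
    rw [hS]
    refine natDegree_sum_le_of_forall_le _ _ fun i _ => ?_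
    refine (natDegree_C_mul_X_pow_le _ _).trans ?_
    have := i.2
    omega
  obtain ⟨hS1, ⟨b, hb, hBb⟩, ⟨a, ha⟩⟩ := key_poly hq0 hq hn hAB hB0 hS0 hSn h3
  refine ⟨fun i => ?_, a / b, ?_⟩
  · have h4 := congrArg (fun p => p.coeff ((i : ℕ) + 1)) hS1
    simp only [hS, finsetSum_coeff, coeff_C_mul, coeff_X_pow, coeff_zero] at h4
    rw [Finset.sum_eq_single i] at h4
    · simpa using h4
    · intro j _ hj
      rw [if_neg, mul_zero]
      intro h5
      apply hj
      apply Fin.ext
      omega
    · intro h5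
      exact absurd (Finset.mem_univ i) h5
  · rw [← hg, ha, hBb, hal, RatFunc.algebraMap_C, RatFunc.algebraMap_C, map_div₀]

/-! ### Words and the Krylov vectors -/

variable {n r : ℕ}

/-- The vector obtained from `u` by applying the matrices along a word. -/
def Nw (N : Fin n → Matrix (Fin r) (Fin r) K) (u : Fin r → K) : List (Fin n) → Fin r → K
  | [] => u
  | i :: w => (N i).mulVec (Nw N u w)

/-- The iterates of the semilinear operator. -/
def Uv (q : K) (N : Fin n → Matrix (Fin r) (Fin r) K) (u : Fin r → K) : ℕ → Fin r → K[X]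
  | 0 => fun a => C (u a)
  | k + 1 => fun a => pden K n * dil q (Uv q N u k a)
      - ∑ i : Fin n, X ^ ((i : ℕ) + 1) * ∑ b, C (N i a b) * dil q (Uv q N u k b)

lemma Uv_natDegree (q : K) (N : Fin n → Matrix (Fin r) (Fin r) K) (u : Fin r → K) (k : ℕ) :
    ∀ a, (Uv q N u k a).natDegree ≤ n * k := by
  induction k with
  | zero => intro a; simp [Uv]
  | succ k ih =>
    intro a
    rw [Uv]
    refine (natDegree_sub_le _ _).trans (max_le ?_ ?_)
    · refine natDegree_mul_le.trans ?_
      rw [pden_natDegree]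
      have := (dil_natDegree_le q (Uv q N u k a)).trans (ih a)
      rw [Nat.mul_succ]
      omega
    · refine natDegree_sum_le_of_forall_le _ _ fun i _ => ?_
      refine natDegree_mul_le.trans ?_
      have h1 : (X ^ ((i : ℕ) + 1) : K[X]).natDegree ≤ n := by
        rw [natDegree_X_pow]
        have := i.2
        omega
      have h2 : (∑ b, C (N i a b) * dil q (Uv q N u k b)).natDegree ≤ n * k := by
        refine natDegree_sum_le_of_forall_le _ _ fun b _ => ?_
        refine (natDegree_C_mul_le _ _).trans ?_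
        exact (dil_natDegree_le q (Uv q N u k b)).trans (ih b)
      rw [Nat.mul_succ]
      omega

/-- The semilinear operator on vectors of rational functions. -/
def nab (q : K) (hq : q ≠ 0) (N : Fin n → Matrix (Fin r) (Fin r) K) (x : Fin r → RatFunc K) :
    Fin r → RatFunc K := fun a =>
  algebraMap K[X] (RatFunc K) (pden K n) * sig q hq (x a)
    - ∑ i : Fin n, algebraMap K[X] (RatFunc K) (X ^ ((i : ℕ) + 1)) *
      ∑ b, RatFunc.C (N i a b) * sig q hq (x b)

/-- The Krylov vectors as vectors of rational functions. -/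
def Uf (q : K) (N : Fin n → Matrix (Fin r) (Fin r) K) (u : Fin r → K) (k : ℕ) :
    Fin r → RatFunc K := fun a => algebraMap K[X] (RatFunc K) (Uv q N u k a)

lemma Uf_succ (q : K) (hq : q ≠ 0) (N : Fin n → Matrix (Fin r) (Fin r) K) (u : Fin r → K)
    (k : ℕ) : Uf q N u (k + 1) = nab q hq N (Uf q N u k) := by
  funext a
  simp only [Uf, nab, Uv, map_sub, map_mul, map_sum, sig_algebraMap, RatFunc.algebraMap_C]

lemma nab_add (q : K) (hq : q ≠ 0) (N : Fin n → Matrix (Fin r) (Fin r) K)
    (x y : Fin r → RatFunc K) : nab q hq N (x + y) = nab q hq N x + nab q hq N y := by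
  funext a
  simp only [nab, Pi.add_apply, map_add, mul_add, Finset.sum_add_distrib]
  ring

lemma nab_smul (q : K) (hq : q ≠ 0) (N : Fin n → Matrix (Fin r) (Fin r) K)
    (c : RatFunc K) (x : Fin r → RatFunc K) :
    nab q hq N (c • x) = sig q hq c • nab q hq N x := by
  funext a
  simp only [nab, Pi.smul_apply, smul_eq_mul, map_mul, mul_sub, Finset.mul_sum]
  congr 1
  · ring
  · refine Finset.sum_congr rfl fun i _ => Finset.sum_congr rfl fun b _ => by ring

lemma nab_zero (q : K) (hq : q ≠ 0) (N : Fin n → Matrix (Fin r) (Fin r) K) :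
    nab q hq N 0 = 0 := by
  funext a
  simp [nab]

/-- If the first `r` Krylov vectors are dependent, some nonzero vector is orthogonal to all
of them. -/
lemma exists_annihilator (q : K) (hq : q ≠ 0) (N : Fin n → Matrix (Fin r) (Fin r) K)
    (u : Fin r → K) (hdet : (Matrix.of fun (k : Fin r) a => Uv q N u k a).det = 0) :
    ∃ l : Fin r → RatFunc K, l ≠ 0 ∧ ∀ k, ∑ a, Uf q N u k a * l a = 0 := by
  classical
  set al := algebraMap K[X] (RatFunc K) with hal
  set M : Matrix (Fin r) (Fin r) (RatFunc K) := Matrix.of fun (k : Fin r) a => Uf q N u k a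
    with hM
  have hdM : M.det = 0 := by
    have h1 : M = (Matrix.of fun (k : Fin r) a => Uv q N u k a).map al := by
      ext k a
      simp [hM, Uf, hal]
    rw [h1]
    have h2 := RingHom.map_det al (Matrix.of fun (k : Fin r) a => Uv q N u k a)
    rw [hdet, map_zero] at h2
    exact h2.symm
  obtain ⟨c, hc0, hc⟩ := Matrix.exists_vecMul_eq_zero_iff.mpr hdM
  -- the largest index with a nonzero coefficient
  have hne : (Finset.univ.filter fun i : Fin r => c i ≠ 0).Nonempty := by
    obtain ⟨i, hi⟩ := Function.ne_iff.mp hc0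
    exact ⟨i, by simpa using hi⟩
  set m := (Finset.univ.filter fun i : Fin r => c i ≠ 0).max' hne with hm
  have hcm : c m ≠ 0 := by
    have := Finset.max'_mem _ hne
    rw [← hm] at this
    exact (Finset.mem_filter.mp this).2
  have hgt : ∀ i : Fin r, m < i → c i = 0 := by
    intro i hi
    by_contra h
    have h1 := Finset.le_max' (Finset.univ.filter fun i : Fin r => c i ≠ 0) i
      (by simpa using h)
    rw [← hm] at h1
    exact absurd h1 (not_le.mpr hi)
  set Sm : Submodule (RatFunc K) (Fin r → RatFunc K) :=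
    Submodule.span (RatFunc K) ((fun j : ℕ => Uf q N u j) '' {j | j < (m : ℕ)}) with hSm
  have hUm : Uf q N u (m : ℕ) ∈ Sm := by
    have h1 : ∀ a, ∑ k : Fin r, c k * Uf q N u k a = 0 := by
      intro a
      have := congrFun hc a
      simpa [Matrix.vecMul, dotProduct, hM] using this
    have h2 : Uf q N u (m : ℕ)
        = ∑ k ∈ Finset.univ.filter (fun k : Fin r => k < m), (-(c m)⁻¹ * c k) • Uf q N u k := by
      funext a
      have h3 := h1 a
      rw [← Finset.sum_filter_add_sum_filter_not Finset.univ (fun k : Fin r => k < m)] at h3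
      have h4 : ∑ k ∈ Finset.univ.filter (fun k : Fin r => ¬ k < m), c k * Uf q N u k a
          = c m * Uf q N u m a := by
        rw [Finset.sum_eq_single m]
        · intro b hb hbm
          have hb1 := (Finset.mem_filter.mp hb).2
          rw [hgt b (lt_of_le_of_ne (not_lt.mp hb1) hbm.symm), zero_mul]
        · intro h
          exact absurd (Finset.mem_filter.mpr ⟨Finset.mem_univ m, lt_irrefl m⟩) h
      rw [h4] at h3
      rw [Finset.sum_apply]
      simp only [Pi.smul_apply, smul_eq_mul]
      have h5 : ∑ x ∈ Finset.univ.filter (fun k : Fin r => k < m),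
          -(c m)⁻¹ * c x * Uf q N u x a
          = -(c m)⁻¹ * ∑ x ∈ Finset.univ.filter (fun k : Fin r => k < m),
            c x * Uf q N u x a := by
        rw [Finset.mul_sum]
        exact Finset.sum_congr rfl fun _ _ => by ring
      rw [h5]
      have h6 : ∑ x ∈ Finset.univ.filter (fun k : Fin r => k < m), c x * Uf q N u x a
          = -(c m * Uf q N u m a) := by linear_combination h3
      rw [h6]
      field_simp
    rw [h2]
    refine Submodule.sum_mem _ fun k hk => Submodule.smul_mem _ _ ?_
    exact Submodule.subset_span ⟨k, (Finset.mem_filter.mp hk).2, rfl⟩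
  have hstab : ∀ x ∈ Sm, nab q hq N x ∈ Sm := by
    intro x hx
    refine Submodule.span_induction ?_ ?_ ?_ ?_ hx
    · rintro _ ⟨j, hj, rfl⟩
      have hj' : j < (m : ℕ) := hj
      show nab q hq N (Uf q N u j) ∈ Sm
      rw [← Uf_succ]
      rcases Nat.lt_or_ge (j + 1) (m : ℕ) with h | h
      · exact Submodule.subset_span ⟨j + 1, h, rfl⟩
      · have : j + 1 = (m : ℕ) := by omega
        rw [this]; exact hUm
    · rw [nab_zero]; exact Submodule.zero_mem _
    · intro x y _ _ hx hy
      rw [nab_add]; exact Submodule.add_mem _ hx hy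
    · intro a x _ hx
      rw [nab_smul]; exact Submodule.smul_mem _ _ hx
  have hall : ∀ k, Uf q N u k ∈ Sm := by
    intro k
    induction k with
    | zero =>
      rcases Nat.eq_zero_or_pos (m : ℕ) with h | h
      · rw [← h]; exact hUm
      · exact Submodule.subset_span ⟨0, h, rfl⟩
    | succ k ih => rw [Uf_succ q hq]; exact hstab _ ih
  set A : Matrix (Fin r) (Fin r) (RatFunc K) :=
    Matrix.of fun (j : Fin r) a => if j < m then Uf q N u j a else 0 with hA
  have hdA : A.det = 0 := by
    apply Matrix.det_eq_zero_of_row_eq_zero m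
    intro j
    simp [hA]
  obtain ⟨v, hv0, hv⟩ := Matrix.exists_mulVec_eq_zero_iff.mpr hdA
  refine ⟨v, hv0, fun k => ?_⟩
  have hgen : ∀ x ∈ Sm, ∑ a, x a * v a = 0 := by
    intro x hx
    refine Submodule.span_induction ?_ ?_ ?_ ?_ hx
    · rintro _ ⟨j, hj, rfl⟩
      have hj' : j < (m : ℕ) := hj
      have h1 := congrFun hv ⟨j, hj'.trans m.2⟩
      have h2 : (⟨j, hj'.trans m.2⟩ : Fin r) < m := hj'
      simpa [Matrix.mulVec, dotProduct, hA, h2] using h1
    · simp
    · intro x y _ _ hx hy
      simp only [Pi.add_apply, add_mul, Finset.sum_add_distrib, hx, hy, add_zero]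
    · intro a x _ hx
      simp only [Pi.smul_apply, smul_eq_mul, mul_assoc, ← Finset.mul_sum, hx, mul_zero]
  exact hgen _ (hall k)

/-! ### The adjoint operator -/

/-- The adjoint semilinear operator on functionals. -/
def nabD (q : K) (hq : q ≠ 0) (N : Fin n → Matrix (Fin r) (Fin r) K) (l : Fin r → RatFunc K) :
    Fin r → RatFunc K := fun b =>
  (sig q hq).symm (l b - ∑ i : Fin n, phi K n i * ∑ a, l a * RatFunc.C (N i a b))

/-- The value of a functional on the vector attached to a word. -/
def val (N : Fin n → Matrix (Fin r) (Fin r) K) (u : Fin r → K) (l : Fin r → RatFunc K)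
    (w : List (Fin n)) : RatFunc K := ∑ a, l a * RatFunc.C (Nw N u w a)

lemma annih_nabD (q : K) (hq : q ≠ 0) (hn : 0 < n) (N : Fin n → Matrix (Fin r) (Fin r) K)
    (u : Fin r → K) (l : Fin r → RatFunc K) (hl : ∀ k, ∑ a, Uf q N u k a * l a = 0) (k : ℕ) :
    ∑ a, Uf q N u k a * nabD q hq N l a = 0 := by
  apply (sig q hq).injective
  rw [map_zero, map_sum]
  have haP : algebraMap K[X] (RatFunc K) (pden K n) ≠ 0 := algMap_ne_zero (pden_ne_zero hn)
  have h1 := hl (k + 1)
  rw [Uf_succ q hq] at h1
  apply mul_left_cancel₀ haP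
  rw [mul_zero, ← h1, Finset.mul_sum]
  simp only [map_mul, nabD, RingEquiv.apply_symm_apply, nab]
  simp only [sub_mul, Finset.sum_sub_distrib, mul_sub]
  congr 1
  · exact Finset.sum_congr rfl fun a _ => by ring
  · simp only [Finset.mul_sum, Finset.sum_mul]
    rw [Finset.sum_comm]
    conv_rhs => rw [Finset.sum_comm]
    refine Finset.sum_congr rfl fun i _ => ?_
    rw [Finset.sum_comm]
    refine Finset.sum_congr rfl fun a _ => Finset.sum_congr rfl fun b _ => ?_
    rw [phi]
    field_simp

lemma val_nabD (q : K) (hq : q ≠ 0) (N : Fin n → Matrix (Fin r) (Fin r) K)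
    (u : Fin r → K) (l : Fin r → RatFunc K) (w : List (Fin n)) :
    val N u (nabD q hq N l) w
      = (sig q hq).symm (val N u l w - ∑ i : Fin n, phi K n i * val N u l (i :: w)) := by
  apply (sig q hq).injective
  rw [RingEquiv.apply_symm_apply]
  simp only [val, map_sum, map_mul, nabD, RingEquiv.apply_symm_apply, sig_C, sub_mul,
    Finset.sum_sub_distrib]
  congr 1
  simp only [Nw, Matrix.mulVec, dotProduct, map_sum, map_mul, Finset.mul_sum, Finset.sum_mul]
  rw [Finset.sum_comm]
  refine Finset.sum_congr rfl fun i _ => ?_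
  rw [Finset.sum_comm]
  refine Finset.sum_congr rfl fun a _ => Finset.sum_congr rfl fun b _ => ?_
  ring

lemma val_sub (N : Fin n → Matrix (Fin r) (Fin r) K) (u : Fin r → K)
    (l l' : Fin r → RatFunc K) (w : List (Fin n)) :
    val N u (l - l') w = val N u l w - val N u l' w := by
  simp only [val, Pi.sub_apply, sub_mul, Finset.sum_sub_distrib]

lemma val_smul (N : Fin n → Matrix (Fin r) (Fin r) K) (u : Fin r → K) (c : RatFunc K)
    (l : Fin r → RatFunc K) (w : List (Fin n)) :
    val N u (c • l) w = c * val N u l w := by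
  simp only [val, Pi.smul_apply, smul_eq_mul, mul_assoc, Finset.mul_sum]

/-- The determinant of the Krylov vectors is nonzero. -/
theorem det_ne_zero {q : K} (hq0 : q ≠ 0) (hq : ∀ k : ℕ, 0 < k → q ^ k ≠ 1) (hn : 0 < n)
    (N : Fin n → Matrix (Fin r) (Fin r) K) (u : Fin r → K)
    (hnil : ∃ d, ∀ w : List (Fin n), d ≤ w.length → Nw N u w = 0)
    (hcyc : ∀ l : Fin r → RatFunc K, (∀ w, val N u l w = 0) → l = 0) :
    (Matrix.of fun (k : Fin r) a => Uv q N u k a).det ≠ 0 := by
  classical
  intro hdet
  obtain ⟨l0, hl0, hl0k⟩ := exists_annihilator q hq0 N u hdet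
  obtain ⟨d, hd⟩ := hnil
  -- codes of words with nonzero vectors are bounded
  obtain ⟨Bd, hBd⟩ : ∃ Bd : ℕ, ∀ w : List (Fin n), Nw N u w ≠ 0 → Encodable.encode w ≤ Bd := by
    have hfin : ((fun w : List (Fin n) => Encodable.encode w) ''
        {w : List (Fin n) | w.length < d}).Finite := (List.finite_length_lt (Fin n) d).image _
    obtain ⟨Bd, hBd⟩ := hfin.bddAbove
    refine ⟨Bd, fun w hw => hBd ⟨w, ?_, rfl⟩⟩
    by_contra h
    exact hw (hd w (not_lt.mp h))
  let Q : ℕ → Prop := fun c => ∃ l : Fin r → RatFunc K, (∀ k, ∑ a, Uf q N u k a * l a = 0) ∧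
    (∃ w, Encodable.encode w = c ∧ val N u l w ≠ 0) ∧
    ∀ w', c < Encodable.encode w' → val N u l w' = 0
  have hval0 : ∀ (l : Fin r → RatFunc K) w, val N u l w ≠ 0 → Nw N u w ≠ 0 := by
    intro l w h1 h2
    apply h1
    simp [val, h2]
  have hQ : ∀ l : Fin r → RatFunc K, l ≠ 0 → (∀ k, ∑ a, Uf q N u k a * l a = 0) →
      ∃ c, Q c ∧ ∃ w, Encodable.encode w = c ∧ val N u l w ≠ 0 := by
    intro l hl hlk
    have h1 : ∃ w, val N u l w ≠ 0 := by
      by_contra h
      push Not at h
      exact hl (hcyc l h)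
    set S : Set ℕ := {c | ∃ w : List (Fin n), Encodable.encode w = c ∧ val N u l w ≠ 0} with hS
    have hSn : S.Nonempty := by
      obtain ⟨w, hw⟩ := h1
      exact ⟨_, w, rfl, hw⟩
    have hSb : BddAbove S := by
      refine ⟨Bd, ?_⟩
      rintro c ⟨w, rfl, hw⟩
      exact hBd w (hval0 l w hw)
    have hmem := Nat.sSup_mem hSn hSb
    refine ⟨sSup S, ⟨l, hlk, hmem, ?_⟩, hmem⟩
    intro w' hw'
    by_contra h
    have : Encodable.encode w' ≤ sSup S := le_csSup hSb ⟨w', rfl, h⟩
    omega
  have hex : ∃ c, Q c := by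
    obtain ⟨c, hc, _⟩ := hQ l0 hl0 hl0k
    exact ⟨c, hc⟩
  obtain ⟨l, hlk, ⟨w0, hw0c, hw0⟩, hgt⟩ := Nat.find_spec hex
  set c0 := Nat.find hex with hc0
  have hmin : ∀ c, c < c0 → ¬ Q c := fun c hc => Nat.find_min hex hc
  -- normalise
  set l1 : Fin r → RatFunc K := (val N u l w0)⁻¹ • l with hl1
  have hl1k : ∀ k, ∑ a, Uf q N u k a * l1 a = 0 := by
    intro k
    have : ∑ a, Uf q N u k a * l1 a = (val N u l w0)⁻¹ * ∑ a, Uf q N u k a * l a := by
      rw [Finset.mul_sum]
      refine Finset.sum_congr rfl fun a _ => ?_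
      simp only [hl1, Pi.smul_apply, smul_eq_mul]
      ring
    rw [this, hlk k, mul_zero]
  have hl1w0 : val N u l1 w0 = 1 := by
    rw [hl1, val_smul, inv_mul_cancel₀ hw0]
  have hl1gt : ∀ w', c0 < Encodable.encode w' → val N u l1 w' = 0 := by
    intro w' hw'
    rw [hl1, val_smul, hgt w' hw', mul_zero]
  have henc : ∀ (i : Fin n) (w : List (Fin n)), Encodable.encode w < Encodable.encode (i :: w) := by
    intro i w
    rw [Encodable.encode_list_cons]
    exact Nat.lt_succ_of_le (Nat.right_le_pair _ _)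
  have hinv : nabD q hq0 N l1 - l1 = 0 := by
    by_contra hne
    have hk : ∀ k, ∑ a, Uf q N u k a * (nabD q hq0 N l1 - l1) a = 0 := by
      intro k
      simp only [Pi.sub_apply, mul_sub, Finset.sum_sub_distrib]
      rw [annih_nabD q hq0 hn N u l1 hl1k k, hl1k k, sub_zero]
    obtain ⟨c, hQc, w, hwc, hw⟩ := hQ _ hne hk
    have hvge : ∀ w : List (Fin n), c0 ≤ Encodable.encode w →
        val N u (nabD q hq0 N l1 - l1) w = 0 := by
      intro w hwle
      have h1 : ∀ i, val N u l1 (i :: w) = 0 := fun i =>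
        hl1gt _ (lt_of_le_of_lt hwle (henc i w))
      rw [val_sub, val_nabD]
      simp only [h1, mul_zero, Finset.sum_const_zero, sub_zero]
      rcases Nat.lt_or_ge c0 (Encodable.encode w) with h2 | h2
      · rw [hl1gt w h2, map_zero, sub_zero]
      · have h3 : Encodable.encode w = Encodable.encode w0 := by rw [hw0c]; omega
        have h4 : w = w0 := Encodable.encode_injective h3
        rw [h4, hl1w0, map_one, sub_self]
    apply hmin c _ hQc
    by_contra h
    exact hw (hvge w (by omega))
  have hinv' : nabD q hq0 N l1 = l1 := sub_eq_zero.mp hinv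
  have hrec : ∀ w, sig q hq0 (val N u l1 w)
      = val N u l1 w - ∑ i : Fin n, phi K n i * val N u l1 (i :: w) := by
    intro w
    have h1 := val_nabD q hq0 N u l1 w
    rw [hinv'] at h1
    have h2 := congrArg (sig q hq0) h1
    rwa [RingEquiv.apply_symm_apply] at h2
  -- all values are constants, and the values on `i :: w` vanish
  have hconst : ∀ j : ℕ, ∀ w : List (Fin n), d ≤ w.length + j →
      ∃ a : K, val N u l1 w = RatFunc.C a := by
    intro j
    induction j with
    | zero =>
      intro w hw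
      exact ⟨0, by simp [val, hd w (by simpa using hw)]⟩
    | succ j ih =>
      intro w hw
      have h1 : ∀ i : Fin n, ∃ a : K, val N u l1 (i :: w) = RatFunc.C a := by
        intro i
        apply ih
        rw [List.length_cons]
        omega
      choose c hc using h1
      have h2 := hrec w
      simp only [hc] at h2
      exact (indep hq0 hq hn _ c h2).2
  have hzero : ∀ (i : Fin n) (w : List (Fin n)), val N u l1 (i :: w) = 0 := by
    intro i w
    have h1 : ∀ i : Fin n, ∃ a : K, val N u l1 (i :: w) = RatFunc.C a := fun i =>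
      hconst d _ (by omega)
    choose c hc using h1
    have h2 := hrec w
    simp only [hc] at h2
    have h3 := (indep hq0 hq hn _ c h2).1 i
    rw [hc i, h3, map_zero]
  have hnilw : val N u l1 [] = 0 := by
    have := hl1k 0
    simp only [Uf, Uv, RatFunc.algebraMap_C] at this
    rw [val]
    simp only [Nw]
    rw [← this]
    exact Finset.sum_congr rfl fun a _ => mul_comm _ _
  have hl10 : l1 = 0 := by
    apply hcyc
    intro w
    cases w with
    | nil => exact hnilw
    | cons i w => exact hzero i w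
  rw [hl10] at hl1w0
  simp [val] at hl1w0

end

end Vale.Agent.P314
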